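import Mathlib
import Crest.Prelude.Def_MassAction

-- ▼ part R092/Interface
section

/-!
Shared definitions for result 92 (S0122).
-/

set_option autoImplicit false

namespace Crest.Agent.R092
open Filter Crest.AnalysisR.MassAction

/-- Membership in the polytope `K_L`: all linear constraints at parameter `L` hold. -/
def Sat {d : ℕ} {ι : Type} (a : ι → Fin d → ℝ) (b : ι → ℝ → ℝ) (L : ℝ) (x : Fin d → ℝ) : Prop :=
  ∀ i, ∑ j, a i j * x j ≤ b i L

/-- Compatibility of the normal vector `w` with the point `x`. -/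
def Compat {d : ℕ} (Q : ℕ) (L : ℝ) (w x : Fin d → ℝ) : Prop :=
  ∀ v : Fin d → ℤ, (∀ j, |v j| ≤ (Q : ℤ)) → 0 < ∑ j, w j * (v j : ℝ) →
    L ≤ ∑ j, (v j : ℝ) * Real.log (x j)

/-- Part 1 (polytope family), owner helper590. -/
def Part1 : Prop :=
  ∀ (d : ℕ), 1 ≤ d → ∀ (Q : ℕ),
    ∃ (ι : Type) (_ : Fintype ι) (a : ι → Fin d → ℝ) (b : ι → ℝ → ℝ) (D : ℝ),
      (∀ i, ContDiff ℝ 1 (b i)) ∧
      (∀ x : Fin d → ℝ, (∀ j, 0 < x j) → ∀ᶠ L in atTop, Sat a b L x) ∧
      (∀ᶠ L in atTop, ∀ x, Sat a b L x →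
        ∀ j, Real.exp (-(D * L)) ≤ x j ∧ x j ≤ Real.exp (D * L)) ∧
      (∀ᶠ L in atTop, ∀ x, Sat a b L x →
        ∀ i, ∑ j, a i j * x j = b i L → Compat Q L (a i) x)

/-- Part 2 (field estimate). -/
def Part2 : Prop :=
  ∀ (d : ℕ) (R : Network d), IsWeaklyReversible R →
    ∀ (k : (Fin d → ℕ) × (Fin d → ℕ) → ℝ), (∀ r ∈ R, 0 < k r) →
    ∀ (Q : ℕ), (∀ r ∈ R, ∀ j, r.1 j ≤ Q ∧ r.2 j ≤ Q) →
    ∀ (w : Fin d → ℝ), ∀ᶠ L in atTop, ∀ x : Fin d → ℝ, (∀ j, 0 < x j) → Compat Q L w x →
      (∀ r ∈ R, ∑ j, w j * reactionVector r j = 0) ∨ ∑ j, w j * field R k x j < 0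

/-- Part 3 (dynamics) for an abstract `C¹` field. -/
def Part3 : Prop :=
  ∀ (d : ℕ) (F : (Fin d → ℝ) → (Fin d → ℝ)), ContDiff ℝ 1 F →
    ∀ (S : Submodule ℝ (Fin d → ℝ)), (∀ x, F x ∈ S) →
    ∀ (c : Fin d → ℝ), (∀ i, 0 < c i) →
    ∀ (ι : Type) [Fintype ι] (a : ι → Fin d → ℝ) (b : ι → ℝ → ℝ) (D : ℝ),
      (∀ i, ContDiff ℝ 1 (b i)) →
      (∀ x : Fin d → ℝ, (∀ j, 0 < x j) → ∀ᶠ L in atTop, Sat a b L x) →
      (∀ᶠ L in atTop, ∀ x, Sat a b L x →
        ∀ j, Real.exp (-(D * L)) ≤ x j ∧ x j ≤ Real.exp (D * L)) →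
      (∀ᶠ L in atTop, ∀ x, Sat a b L x →
        ∀ i, ∑ j, a i j * x j = b i L →
          (∀ s ∈ S, ∑ j, a i j * s j = 0) ∨ ∑ j, a i j * F x j < 0) →
    ∃ K : Set (Fin d → ℝ), K ⊆ {x | (∀ i, 0 < x i) ∧ x - c ∈ S} ∧ K.Nonempty ∧ IsCompact K ∧
      Convex ℝ K ∧
      (∀ x : ℝ → (Fin d → ℝ), IsForwardSolution F x → x 0 ∈ K →
        ∀ t : ℝ, 0 ≤ t → x t ∈ K) ∧
      (∀ x₀ ∈ {x : Fin d → ℝ | (∀ i, 0 < x i) ∧ x - c ∈ S},
        (∃ x : ℝ → (Fin d → ℝ), IsForwardSolution F x ∧ x 0 = x₀) ∧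
        (∀ x x' : ℝ → (Fin d → ℝ), IsForwardSolution F x →
          IsForwardSolution F x' → x 0 = x₀ → x' 0 = x₀ →
          ∀ t : ℝ, 0 ≤ t → x t = x' t) ∧
        (∀ x : ℝ → (Fin d → ℝ), IsForwardSolution F x → x 0 = x₀ →
          (∀ t : ℝ, 0 ≤ t → ∀ i, 0 < x t i) ∧
          ∃ T : ℝ, 0 ≤ T ∧ ∀ t : ℝ, T ≤ t → x t ∈ K))

end Crest.Agent.R092
end

-- ▼ part R092/RndTree
section

/-!
Part 1 of result 92 (helper430): finite families of affine functions whose maximiser
rounds `-log x / t` with an arbitrary prescribed tolerance `G`.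
-/

set_option autoImplicit false

namespace Crest.Agent.R092.Rnd
open Filter Finset Real

/-- A pair: normal vector, and offset as a function of the parameter `t`. -/
abbrev Aff (ι : Type) := (ι → ℝ) × (ℝ → ℝ)

variable {ι : Type} [Fintype ι] [DecidableEq ι]

/-- value of the affine function -/
noncomputable def V (p : Aff ι) (t : ℝ) (x : ι → ℝ) : ℝ := p.2 t - ∑ j, p.1 j * x j

/-- modify `a` to be `r` on `J` -/
def setOn (J : Finset ι) (a : ι → ℝ) (r : ℝ) : ι → ℝ := fun j => if j ∈ J then r else a j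

/-- the root element -/
def root (J : Finset ι) (a : ι → ℝ) (r : ℝ) : Aff ι := (setOn J a r, fun _ => 0)

/-- the point `x = exp (-t w)` has `|w j - p.1 j| < G p.1` -/
def Near (G : (ι → ℝ) → ℝ) (t : ℝ) (x : ι → ℝ) (p : Aff ι) (j : ι) : Prop :=
  exp (-(t * (p.1 j + G p.1))) < x j ∧ x j < exp (-(t * (p.1 j - G p.1)))

structure IsRaise (G : (ι → ℝ) → ℝ) (κ : ℝ) (J : Finset ι) (a : ι → ℝ) (s τ : ℝ)
    (F : Set (Aff ι)) : Prop where
  fin : F.Finite
  first : ∃ c : ℝ, 0 < c ∧ ((setOn J a (s + c), fun t => c * exp (-(t * τ))) : Aff ι) ∈ F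
  off : ∀ p ∈ F, ∀ j, j ∉ J → p.1 j = a j
  up : ∀ p ∈ F, ∀ j ∈ J, τ ≤ p.1 j
  smooth : ∀ p ∈ F, ContDiff ℝ 1 p.2
  bound : ∃ C : ℝ, 0 ≤ C ∧ ∀ p ∈ F, ∀ t : ℝ, 0 ≤ t → p.2 t ≤ C * exp (-(t * τ))
  round : ∀ᶠ t : ℝ in atTop, ∀ x : ι → ℝ, (∀ j, 0 < x j) → (∀ j ∈ J, exp (-(t * κ)) ≤ x j) →
    ∀ p ∈ F, (∀ q ∈ F, V q t x ≤ V p t x) → V (root J a s) t x ≤ V p t x →
    ∀ j ∈ J, Near G t x p j

structure IsNode (G : (ι → ℝ) → ℝ) (κ : ℝ) (J : Finset ι) (a : ι → ℝ) (r θ ω : ℝ)
    (F : Set (Aff ι)) : Prop where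
  fin : F.Finite
  root_mem : root J a r ∈ F
  off : ∀ p ∈ F, ∀ j, j ∉ J → p.1 j = a j
  up : ∀ p ∈ F, ∀ j ∈ J, r ≤ p.1 j
  smooth : ∀ p ∈ F, ContDiff ℝ 1 p.2
  bound : ∃ C δ : ℝ, 0 ≤ C ∧ 0 < δ ∧ ∀ p ∈ F, ∀ t : ℝ, 0 ≤ t →
    p.2 t ≤ C * exp (-(t * (r + θ + δ)))
  round : ∀ c : ℝ, 0 < c → ∀ᶠ t : ℝ in atTop, ∀ x : ι → ℝ, (∀ j, 0 < x j) →
    (∀ j ∈ J, exp (-(t * κ)) ≤ x j) →
    (∀ j ∈ J, x j ≤ exp (-(t * (r - ω)))) →
    c * exp (-(t * (r + θ))) ≤ ∑ j ∈ J, x j →
    ∀ p ∈ F, (∀ q ∈ F, V q t x ≤ V p t x) →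
    ∀ j ∈ J, Near G t x p j

/-! ### basic lemmas -/

theorem exp_dom {τ₁ τ₂ : ℝ} (h : τ₁ < τ₂) (C : ℝ) {c : ℝ} (hc : 0 < c) :
    ∀ᶠ t : ℝ in atTop, C * exp (-(t * τ₂)) < c * exp (-(t * τ₁)) := by
  have h1 : Tendsto (fun t : ℝ => C * exp (-(t * (τ₂ - τ₁)))) atTop (nhds (C * 0)) := by
    apply Tendsto.const_mul
    apply Real.tendsto_exp_neg_atTop_nhds_zero.comp
    exact tendsto_id.atTop_mul_const (by linarith)
  rw [mul_zero] at h1
  have h2 := h1.eventually (gt_mem_nhds hc)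
  filter_upwards [h2] with t ht
  have h3 : exp (-(t * τ₂)) = exp (-(t * (τ₂ - τ₁))) * exp (-(t * τ₁)) := by
    rw [← Real.exp_add]; congr 1; ring
  rw [h3, ← mul_assoc]
  exact mul_lt_mul_of_pos_right ht (Real.exp_pos _)

theorem V_root (J : Finset ι) (a : ι → ℝ) (r t : ℝ) (x : ι → ℝ) :
    V (root J a r) t x = - (∑ j ∈ Finset.univ \ J, a j * x j) - r * ∑ j ∈ J, x j := by
  unfold V root setOn
  simp only
  rw [← Finset.sum_sdiff (Finset.subset_univ J), Finset.mul_sum]
  have h1 : ∑ j ∈ Finset.univ \ J, (if j ∈ J then r else a j) * x j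
      = ∑ j ∈ Finset.univ \ J, a j * x j := by
    apply Finset.sum_congr rfl
    intro j hj
    rw [if_neg (Finset.mem_sdiff.1 hj).2]
  have h2 : ∑ j ∈ J, (if j ∈ J then r else a j) * x j = ∑ j ∈ J, r * x j := by
    apply Finset.sum_congr rfl
    intro j hj
    rw [if_pos hj]
  rw [h1, h2]; ring

theorem V_eq (J : Finset ι) (a : ι → ℝ) (p : Aff ι) (hp : ∀ j, j ∉ J → p.1 j = a j)
    (r t : ℝ) (x : ι → ℝ) :
    V p t x = V (root J a r) t x + p.2 t - ∑ j ∈ J, (p.1 j - r) * x j := by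
  rw [V_root]
  unfold V
  rw [← Finset.sum_sdiff (Finset.subset_univ J)]
  have h1 : ∑ j ∈ Finset.univ \ J, p.1 j * x j
      = ∑ j ∈ Finset.univ \ J, a j * x j := by
    apply Finset.sum_congr rfl
    intro j hj
    rw [hp j (Finset.mem_sdiff.1 hj).2]
  have h2 : ∑ j ∈ J, (p.1 j - r) * x j = ∑ j ∈ J, p.1 j * x j - r * ∑ j ∈ J, x j := by
    rw [Finset.mul_sum, ← Finset.sum_sub_distrib]
    apply Finset.sum_congr rfl
    intro j _; ring
  rw [h1, h2]; ring

theorem V_setOn (J : Finset ι) (a : ι → ℝ) (β : ℝ → ℝ) (r c t : ℝ) (x : ι → ℝ) :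
    V (setOn J a (r + c), β) t x = V (root J a r) t x + β t - c * ∑ j ∈ J, x j := by
  rw [V_eq J a (setOn J a (r + c), β) (by intro j hj; simp [setOn, hj]) r]
  congr 1
  rw [Finset.mul_sum]
  apply Finset.sum_congr rfl
  intro j hj
  simp [setOn, hj]

theorem V_shift (p : Aff ι) (γ : ℝ → ℝ) (t : ℝ) (x : ι → ℝ) :
    V (p.1, fun t => γ t + p.2 t) t x = γ t + V p t x := by
  unfold V; simp only; ring

/-- Terminal case. -/
theorem raise_terminal (G : (ι → ℝ) → ℝ) (hG : ∀ a, 0 < G a) (κ : ℝ) (J : Finset ι)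
    (a : ι → ℝ) (s τ : ℝ) (hs : s < τ) (hκ : κ ≤ τ) :
    ∃ F, IsRaise G κ J a s τ F := by
  refine ⟨{(setOn J a (s + (τ - s)), fun t => (τ - s) * exp (-(t * τ)))}, ?_⟩
  have hτs : 0 < τ - s := by linarith
  refine ⟨Set.finite_singleton _, ⟨τ - s, hτs, rfl⟩, ?_, ?_, ?_, ?_, ?_⟩
  · rintro p rfl j hj
    simp [setOn, hj]
  · rintro p rfl j hj
    simp [setOn, hj]
  · rintro p rfl
    simp only
    fun_prop
  · refine ⟨τ - s, hτs.le, ?_⟩
    rintro p rfl t ht
    exact le_rfl
  · filter_upwards [eventually_gt_atTop (0 : ℝ)] with t ht x hx hxκ p hp hmax hroot j hj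
    obtain rfl := hp
    rw [V_setOn] at hroot
    have h1 : ∑ j ∈ J, x j ≤ exp (-(t * τ)) := by
      have : (τ - s) * ∑ j ∈ J, x j ≤ (τ - s) * exp (-(t * τ)) := by linarith
      exact le_of_mul_le_mul_left this hτs
    have h2 : x j ≤ ∑ j ∈ J, x j :=
      Finset.single_le_sum (f := x) (fun i _ => (hx i).le) hj
    have h3 : setOn J a (s + (τ - s)) j = τ := by simp [setOn, hj]
    unfold Near
    simp only
    rw [h3]
    have hGp := hG (setOn J a (s + (τ - s)))
    constructor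
    · refine lt_of_lt_of_le ?_ (hxκ j hj)
      apply Real.exp_lt_exp.2
      nlinarith
    · refine lt_of_le_of_lt (h2.trans h1) ?_
      apply Real.exp_lt_exp.2
      nlinarith

/-- Step: combine a node family at `r` and a raise family from `r`. -/
theorem raise_step (G : (ι → ℝ) → ℝ) (κ : ℝ) (J : Finset ι)
    (a : ι → ℝ) (s τ r θ ω : ℝ) (hs : s < τ) (hτr : τ ≤ r) (hrω : r - ω < τ)
    (hθ : 0 < θ) (F F' : Set (Aff ι)) (hF : IsNode G κ J a r θ ω F)
    (hF' : IsRaise G κ J a r (r + θ) F') :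
    ∃ H, IsRaise G κ J a s τ H := by
  have hrs : 0 < r - s := by linarith
  refine ⟨(fun p : Aff ι => ((p.1, fun t => (r - s) * exp (-(t * τ)) + p.2 t) : Aff ι)) '' (F ∪ F'),
    ?_⟩
  obtain ⟨C₁, δ, hC₁, hδ, hb₁⟩ := hF.bound
  obtain ⟨C₂, hC₂, hb₂⟩ := hF'.bound
  refine ⟨(hF.fin.union hF'.fin).image _, ⟨r - s, hrs, ?_⟩, ?_, ?_, ?_, ?_, ?_⟩
  · refine ⟨root J a r, Or.inl hF.root_mem, ?_⟩
    unfold root
    simp
  · rintro _ ⟨p, hp | hp, rfl⟩ j hj
    · exact hF.off p hp j hj
    · exact hF'.off p hp j hj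
  · rintro _ ⟨p, hp | hp, rfl⟩ j hj
    · exact hτr.trans (hF.up p hp j hj)
    · have := hF'.up p hp j hj
      show τ ≤ p.1 j
      linarith
  · rintro _ ⟨p, hp | hp, rfl⟩
    · have := hF.smooth p hp
      simp only
      fun_prop
    · have := hF'.smooth p hp
      simp only
      fun_prop
  · refine ⟨(r - s) + (C₁ + C₂), by linarith, ?_⟩
    rintro _ ⟨p, hp | hp, rfl⟩ t ht
    · have h1 := hb₁ p hp t ht
      have h2 : exp (-(t * (r + θ + δ))) ≤ exp (-(t * τ)) := by
        apply Real.exp_le_exp.2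
        nlinarith
      have h3 := Real.exp_pos (-(t * τ))
      simp only
      nlinarith
    · have h1 := hb₂ p hp t ht
      have h2 : exp (-(t * (r + θ))) ≤ exp (-(t * τ)) := by
        apply Real.exp_le_exp.2
        nlinarith
      have h3 := Real.exp_pos (-(t * τ))
      simp only
      nlinarith
  · obtain ⟨c', hc', hfirst⟩ := hF'.first
    have e1 := exp_dom (τ₁ := r - ω) (τ₂ := τ) hrω ((r - s + C₁) / (r - s)) one_pos
    have e2 := exp_dom (τ₁ := r + θ) (τ₂ := r + θ + δ) (by linarith) (C₁ / c')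
      (c := 1 / 2) (by norm_num)
    filter_upwards [hF.round (1 / 2) (by norm_num), hF'.round, e1, e2,
      eventually_gt_atTop (0 : ℝ)] with t hr1 hr2 he1 he2 ht x hx hxκ p' hp' hmax hroot j hj
    obtain ⟨p, hp, rfl⟩ := hp'
    rw [V_shift p (fun t => (r - s) * exp (-(t * τ)))] at hroot
    have hmax' : ∀ q ∈ F ∪ F', V q t x ≤ V p t x := by
      intro q hq
      have h1 := hmax _ ⟨q, hq, rfl⟩
      rw [V_shift p (fun t => (r - s) * exp (-(t * τ))),
        V_shift q (fun t => (r - s) * exp (-(t * τ)))] at h1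
      linarith
    have hrootr : V (root J a r) t x ≤ V p t x := hmax' _ (Or.inl hF.root_mem)
    have hSpos : 0 ≤ ∑ j ∈ J, x j := Finset.sum_nonneg fun i _ => (hx i).le
    have hbase : V (root J a s) t x = V (root J a r) t x + (r - s) * ∑ j ∈ J, x j := by
      rw [V_root, V_root]; ring
    rcases hp with hp | hp
    · -- node case
      have hVp : V p t x ≤ V (root J a r) t x + C₁ * exp (-(t * (r + θ + δ))) := by
        rw [V_eq J a p (hF.off p hp) r]
        have h1 := hb₁ p hp t ht.le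
        have h2 : 0 ≤ ∑ j ∈ J, (p.1 j - r) * x j := by
          apply Finset.sum_nonneg
          intro i hi
          exact mul_nonneg (by linarith [hF.up p hp i hi]) (hx i).le
        linarith
      have hS1 : (r - s) * ∑ j ∈ J, x j ≤ (r - s + C₁) * exp (-(t * τ)) := by
        have h2 : exp (-(t * (r + θ + δ))) ≤ exp (-(t * τ)) := by
          apply Real.exp_le_exp.2
          nlinarith
        rw [hbase] at hroot
        nlinarith
      have hS1' : ∑ j ∈ J, x j ≤ (r - s + C₁) / (r - s) * exp (-(t * τ)) := by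
        rw [div_mul_eq_mul_div, le_div_iff₀ hrs]
        linarith
      have hx1 : ∀ j ∈ J, x j ≤ exp (-(t * (r - ω))) := by
        intro i hi
        have h2 : x i ≤ ∑ j ∈ J, x j :=
          Finset.single_le_sum (f := x) (fun i _ => (hx i).le) hi
        linarith
      have hS2 : 1 / 2 * exp (-(t * (r + θ))) ≤ ∑ j ∈ J, x j := by
        have h1 := hmax' _ (Or.inr hfirst)
        rw [V_setOn] at h1
        have h2 : c' * exp (-(t * (r + θ))) - c' * ∑ j ∈ J, x j
            ≤ C₁ * exp (-(t * (r + θ + δ))) := by linarith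
        have h3 : exp (-(t * (r + θ))) - ∑ j ∈ J, x j
            ≤ C₁ / c' * exp (-(t * (r + θ + δ))) := by
          rw [div_mul_eq_mul_div, le_div_iff₀ hc']
          linarith
        linarith
      exact hr1 x hx hxκ hx1 hS2 p hp (fun q hq => hmax' q (Or.inl hq)) j hj
    · -- raise case
      exact hr2 x hx hxκ p hp (fun q hq => hmax' q (Or.inr hq)) hrootr j hj

/-- Raise families exist as soon as node families exist (downward real induction). -/
theorem raise_of_node (G : (ι → ℝ) → ℝ) (hG : ∀ a, 0 < G a) (κ : ℝ) (J : Finset ι)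
    (hnode : ∀ (a : ι → ℝ) (r : ℝ), ∃ (θ ω : ℝ) (F : Set (Aff ι)), 0 < θ ∧ 0 < ω ∧
      IsNode G κ J a r θ ω F) (a : ι → ℝ) (s τ : ℝ) (hs : s < τ) :
    ∃ F, IsRaise G κ J a s τ F := by
  set B : Set ℝ := {τ | ¬ ∀ s, s < τ → ∃ F, IsRaise G κ J a s τ F} with hB
  by_contra hcon
  have hτB : τ ∈ B := fun h => hcon (h s hs)
  have hBdd : BddAbove B := by
    refine ⟨κ, ?_⟩
    intro τ' hτ'
    by_contra hlt
    push Not at hlt
    exact hτ' fun s' hs' => raise_terminal G hG κ J a s' τ' hs' hlt.le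
  obtain ⟨θ, ω, F, hθ, hω, hF⟩ := hnode a (sSup B)
  have h1 : sSup B + θ ∉ B := by
    intro h
    have := le_csSup hBdd h
    linarith
  have h2 : ∀ s', s' < sSup B + θ → ∃ F, IsRaise G κ J a s' (sSup B + θ) F := by
    by_contra h
    exact h1 h
  obtain ⟨F', hF'⟩ := h2 (sSup B) (by linarith)
  obtain ⟨τ', hτ'B, hτ'⟩ := exists_lt_of_lt_csSup ⟨τ, hτB⟩ (show sSup B - ω < sSup B by linarith)
  refine hτ'B fun s' hs' => ?_
  exact raise_step G κ J a s' τ' (sSup B) θ ω hs' (le_csSup hBdd hτ'B) hτ' hθ F F' hF hF'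

/-- positive lower bound of a positive function on a finite set -/
theorem exists_pos_lower {α : Type*} (f : α → ℝ) (hf : ∀ a, 0 < f a) (S : Set α)
    (hS : S.Finite) : ∃ c : ℝ, 0 < c ∧ ∀ a ∈ S, c < f a := by
  induction S, hS using Set.Finite.induction_on with
  | empty => exact ⟨1, one_pos, by simp⟩
  | @insert a S _ _ ih =>
    obtain ⟨c, hc, h⟩ := ih
    refine ⟨min c (f a / 2), lt_min hc (by linarith [hf a]), ?_⟩
    intro b hb
    rcases Set.mem_insert_iff.1 hb with rfl | hb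
    · exact (min_le_right _ _).trans_lt (by linarith [hf b])
    · exact (min_le_left _ _).trans_lt (h b hb)

/-- recursive choice of a fast decreasing sequence -/
theorem exists_seq (P : ℕ → ℝ → ℝ → Prop) (hP : ∀ k θ, 0 < θ → ∃ c, 0 < c ∧ P k θ c)
    (θ₀ : ℝ) (hθ₀ : 0 < θ₀) :
    ∃ θ : ℕ → ℝ, θ 0 = θ₀ ∧ (∀ k, 0 < θ k) ∧ ∀ k, P k (θ k) (θ (k + 1)) := by
  classical
  choose! c hc hPc using hP
  let θ : ℕ → ℝ := fun n => Nat.rec θ₀ (fun k x => c k x) n
  have hpos : ∀ k, 0 < θ k := by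
    intro k
    induction k with
    | zero => exact hθ₀
    | succ k ih => exact hc k _ ih
  exact ⟨θ, rfl, hpos, fun k => hPc k _ (hpos k)⟩

theorem setOn_setOn (J K : Finset ι) (hJK : J ⊆ K) (a : ι → ℝ) (r : ℝ) :
    setOn J (setOn K a r) r = setOn K a r := by
  funext j
  unfold setOn
  by_cases h1 : j ∈ J
  · simp [h1, hJK h1]
  · simp [h1]

/-- Node families from raise families on proper subsets. -/
theorem node_of_raise (G : (ι → ℝ) → ℝ) (hG : ∀ a, 0 < G a) (κ : ℝ) (J : Finset ι)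
    (hJ : J.Nonempty)
    (hraise : ∀ J' : Finset ι, J' ⊂ J → J'.Nonempty → ∀ (a : ι → ℝ) (s τ : ℝ), s < τ →
      ∃ F, IsRaise G κ J' a s τ F) (a : ι → ℝ) (r : ℝ) :
    ∃ (θ ω : ℝ) (F : Set (Aff ι)), 0 < θ ∧ 0 < ω ∧ IsNode G κ J a r θ ω F := by
  classical
  set a' := setOn J a r with ha'
  have hr' : ∀ (J' : Finset ι) (θ : ℝ), ∃ F : Set (Aff ι), (J' ⊂ J → J'.Nonempty → 0 < θ →
      IsRaise G κ J' a' r (r + θ) F) := by
    intro J' θ
    by_cases h : J' ⊂ J ∧ J'.Nonempty ∧ 0 < θ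
    · obtain ⟨F, hF⟩ := hraise J' h.1 h.2.1 a' r (r + θ) (by linarith [h.2.2])
      exact ⟨F, fun _ _ _ => hF⟩
    · exact ⟨∅, fun h1 h2 h3 => (h ⟨h1, h2, h3⟩).elim⟩
  choose 𝓖 h𝓖 using hr'
  -- the index set of proper nonempty subsets
  set T : Finset (Finset ι) := J.ssubsets.filter (fun J' => J'.Nonempty) with hT
  have hTmem : ∀ J', J' ∈ T ↔ J' ⊂ J ∧ J'.Nonempty := by
    intro J'; simp [hT, Finset.mem_ssubsets]
  obtain ⟨θ, hθ0, hθpos, hθ⟩ := exists_seq
    (fun k θ c => c < θ ∧ ∀ J' ∈ T, ∀ p ∈ 𝓖 J' θ, c < G p.1) (by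
      intro k θ hθ
      have hfin : (⋃ J' ∈ T, 𝓖 J' θ).Finite := by
        apply Set.Finite.biUnion (Finset.finite_toSet T)
        intro J' hJ'
        have := (hTmem J').1 hJ'
        exact (h𝓖 J' θ this.1 this.2 hθ).fin
      obtain ⟨c, hc, hc'⟩ := exists_pos_lower (fun p : Aff ι => G p.1) (fun p => hG _) _ hfin
      refine ⟨min c (θ / 2), lt_min hc (by linarith), ?_, ?_⟩
      · exact (min_le_right _ _).trans_lt (by linarith)
      · intro J' hJ' p hp
        refine (min_le_left _ _).trans_lt (hc' p ?_)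
        simp only [Set.mem_iUnion]
        exact ⟨J', hJ', hp⟩) (G a') (hG a')
  have hanti : StrictAnti θ := strictAnti_nat_of_succ_lt fun n => (hθ n).1
  have hR : ∀ J' ∈ T, IsRaise G κ J' a' r (r + θ J'.card) (𝓖 J' (θ J'.card)) := by
    intro J' hJ'
    have := (hTmem J').1 hJ'
    exact h𝓖 J' _ this.1 this.2 (hθpos _)
  set F : Set (Aff ι) := insert (root J a r) (⋃ J' ∈ T, 𝓖 J' (θ J'.card)) with hFdef
  have hFfin : F.Finite := by
    apply Set.Finite.insert
    apply Set.Finite.biUnion (Finset.finite_toSet T)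
    intro J' hJ'
    exact (hR J' hJ').fin
  obtain ⟨ω, hω, hωF⟩ := exists_pos_lower (fun p : Aff ι => G p.1) (fun p => hG _) F hFfin
  have hmemF : ∀ p ∈ F, p = root J a r ∨ ∃ J' ∈ T, p ∈ 𝓖 J' (θ J'.card) := by
    intro p hp
    rcases Set.mem_insert_iff.1 hp with h | h
    · exact Or.inl h
    · simp only [Set.mem_iUnion] at h
      obtain ⟨J', hJ', h⟩ := h
      exact Or.inr ⟨J', hJ', h⟩
  have hsubF : ∀ J' ∈ T, ∀ p ∈ 𝓖 J' (θ J'.card), p ∈ F := by
    intro J' hJ' p hp
    refine Set.mem_insert_of_mem _ ?_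
    simp only [Set.mem_iUnion]
    exact ⟨J', hJ', hp⟩
  have hcardpos : 0 < J.card := hJ.card_pos
  have hoffJ : ∀ j, j ∉ J → a' j = a j := by
    intro j hj; simp [ha', setOn, hj]
  have honJ : ∀ j ∈ J, a' j = r := by
    intro j hj; simp [ha', setOn, hj]
  refine ⟨θ J.card, ω, F, hθpos _, hω, hFfin, Set.mem_insert _ _, ?_, ?_, ?_, ?_, ?_⟩
  · -- off
    intro p hp j hj
    rcases hmemF p hp with rfl | ⟨J', hJ', hp'⟩
    · simp [root, setOn, hj]
    · have hsub := ((hTmem J').1 hJ').1.subset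
      rw [(hR J' hJ').off p hp' j (fun h => hj (hsub h)), hoffJ j hj]
  · -- up
    intro p hp j hj
    rcases hmemF p hp with rfl | ⟨J', hJ', hp'⟩
    · simp [root, setOn, hj]
    · by_cases hjJ' : j ∈ J'
      · have := (hR J' hJ').up p hp' j hjJ'
        linarith [hθpos J'.card]
      · rw [(hR J' hJ').off p hp' j hjJ', honJ j hj]
  · -- smooth
    intro p hp
    rcases hmemF p hp with rfl | ⟨J', hJ', hp'⟩
    · unfold root; simp only; fun_prop
    · exact (hR J' hJ').smooth p hp'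
  · -- bound
    have hb : ∀ J' : Finset ι, ∃ C : ℝ, 0 ≤ C ∧ (J' ∈ T → ∀ p ∈ 𝓖 J' (θ J'.card), ∀ t : ℝ,
        0 ≤ t → p.2 t ≤ C * exp (-(t * (r + θ J'.card)))) := by
      intro J'
      by_cases h : J' ∈ T
      · obtain ⟨C, hC, hC'⟩ := (hR J' h).bound
        exact ⟨C, hC, fun _ => hC'⟩
      · exact ⟨0, le_rfl, fun h' => (h h').elim⟩
    choose C hC hC' using hb
    refine ⟨∑ J' ∈ T, C J', θ (J.card - 1) - θ J.card, Finset.sum_nonneg fun J' _ => hC J', ?_, ?_⟩
    · have : θ J.card < θ (J.card - 1) := hanti (by omega)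
      linarith
    · intro p hp t ht
      have hsumnn : 0 ≤ ∑ J' ∈ T, C J' := Finset.sum_nonneg fun J' _ => hC J'
      rcases hmemF p hp with rfl | ⟨J', hJ', hp'⟩
      · simp only [root]
        positivity
      · have h1 := hC' J' hJ' p hp' t ht
        have h2 : C J' ≤ ∑ J' ∈ T, C J' :=
          Finset.single_le_sum (f := C) (fun i _ => hC i) hJ'
        have hlt : J'.card < J.card := Finset.card_lt_card ((hTmem J').1 hJ').1
        have h3 : θ (J.card - 1) ≤ θ J'.card := hanti.antitone (by omega)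
        have h4 : exp (-(t * (r + θ J'.card))) ≤
            exp (-(t * (r + θ J.card + (θ (J.card - 1) - θ J.card)))) := by
          apply Real.exp_le_exp.2
          nlinarith
        calc p.2 t ≤ C J' * exp (-(t * (r + θ J'.card))) := h1
          _ ≤ (∑ J' ∈ T, C J') * exp (-(t * (r + θ J.card + (θ (J.card - 1) - θ J.card)))) := by
            apply mul_le_mul h2 h4 (Real.exp_pos _).le hsumnn
  · -- round
    intro c hc
    -- a general statement for a raise family `J'` and element `j ∉ J'`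
    have hrootV : ∀ J' : Finset ι, J' ⊆ J → ∀ t x, V (root J' a' r) t x = V (root J a r) t x := by
      intro J' hJ' t x
      unfold root
      rw [ha', setOn_setOn J' J hJ']
    have hE : ∀ J' ∈ T, ∀ᶠ t : ℝ in atTop, ∀ x : ι → ℝ, (∀ j, 0 < x j) →
        (∀ j ∈ J, exp (-(t * κ)) ≤ x j) →
        (∀ j ∈ J, x j ≤ exp (-(t * (r - ω)))) →
        c * exp (-(t * (r + θ J.card))) ≤ ∑ j ∈ J, x j →
        ∀ p ∈ 𝓖 J' (θ J'.card), (∀ q ∈ F, V q t x ≤ V p t x) →
        ∀ j ∈ J, Near G t x p j := by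
      intro J' hJ'
      have hJ'sub := ((hTmem J').1 hJ').1
      have hJ'ne := ((hTmem J').1 hJ').2
      set q := J'.card with hq
      have hRJ' := hR J' hJ'
      obtain ⟨C, hC, hbC⟩ := hRJ'.bound
      -- constants `c₁` for `insert j J'`
      have hfirst : ∀ j : ι, ∃ c₁ : ℝ, 0 < c₁ ∧ (insert j J' ∈ T →
          ((setOn (insert j J') a' (r + c₁),
            fun t => c₁ * exp (-(t * (r + θ (insert j J').card)))) : Aff ι) ∈
            𝓖 (insert j J') (θ (insert j J').card)) := by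
        intro j
        by_cases h : insert j J' ∈ T
        · obtain ⟨c₁, h1, h2⟩ := (hR _ h).first
          exact ⟨c₁, h1, fun _ => h2⟩
        · exact ⟨1, one_pos, fun h' => (h h').elim⟩
      choose c₁ hc₁ hc₁' using hfirst
      have hθq : θ (q + 1) < θ q := hanti (by omega)
      have e1 : ∀ j : ι, ∀ᶠ t : ℝ in atTop,
          (C / c₁ j + C / θ q) * exp (-(t * (r + θ q))) < 1 / 2 * exp (-(t * (r + θ (q + 1)))) :=
        fun j => exp_dom (by linarith) _ (by norm_num)
      have e2 : ∀ᶠ t : ℝ in atTop,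
          (C / θ q) * exp (-(t * (r + θ q))) < c / 2 * exp (-(t * (r + θ (q + 1)))) :=
        exp_dom (by linarith) _ (by linarith)
      have e3 : ∀ p ∈ 𝓖 J' (θ q), ∀ᶠ t : ℝ in atTop,
          1 * exp (-(t * (r + G p.1))) < min (1 / 2) (c / 2) * exp (-(t * (r + θ (q + 1)))) := by
        intro p hp
        apply exp_dom
        · have := (hθ q).2 J' hJ' p hp
          linarith
        · exact lt_min (by norm_num) (by linarith)
      have e3' : ∀ᶠ t : ℝ in atTop, ∀ p ∈ 𝓖 J' (θ q),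
          1 * exp (-(t * (r + G p.1))) < min (1 / 2) (c / 2) * exp (-(t * (r + θ (q + 1)))) :=
        (Set.Finite.eventually_all hRJ'.fin).2 e3
      filter_upwards [hRJ'.round, eventually_all.2 e1, e2, e3', eventually_gt_atTop (0 : ℝ)]
        with t hround he1 he2 he3 ht x hx hxκ hxω hxS p hp hmax j hj
      have hpF : p ∈ F := hsubF J' hJ' p hp
      have hroot_le : V (root J' a' r) t x ≤ V p t x := by
        rw [hrootV J' hJ'sub.subset]
        exact hmax _ (Set.mem_insert _ _)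
      by_cases hjJ' : j ∈ J'
      · exact hround x hx (fun i hi => hxκ i (hJ'sub.subset hi)) p hp
          (fun q hq => hmax q (hsubF J' hJ' q hq)) hroot_le j hjJ'
      · -- `j ∈ J \ J'`
        have hpj : p.1 j = r := by
          rw [hRJ'.off p hp j hjJ', honJ j hj]
        have hVp := V_eq J' a' p (hRJ'.off p hp) r t x
        have hβ := hbC p hp t ht.le
        have hsumge : θ q * ∑ i ∈ J', x i ≤ ∑ i ∈ J', (p.1 i - r) * x i := by
          rw [Finset.mul_sum]
          apply Finset.sum_le_sum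
          intro i hi
          have := hRJ'.up p hp i hi
          exact mul_le_mul_of_nonneg_right (by linarith) (hx i).le
        have hS'nn : 0 ≤ ∑ i ∈ J', x i := Finset.sum_nonneg fun i _ => (hx i).le
        have hS' : ∑ i ∈ J', x i ≤ C / θ q * exp (-(t * (r + θ q))) := by
          rw [div_mul_eq_mul_div, le_div_iff₀ (hθpos q)]
          linarith
        have hVle : V p t x - V (root J' a' r) t x ≤ C * exp (-(t * (r + θ q))) := by
          have : 0 ≤ θ q * ∑ i ∈ J', x i := mul_nonneg (hθpos q).le hS'nn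
          linarith
        have hcard : (insert j J').card = q + 1 := by
          rw [Finset.card_insert_of_notMem hjJ']
        have hsumins : ∑ i ∈ insert j J', x i = x j + ∑ i ∈ J', x i :=
          Finset.sum_insert hjJ'
        have hinsub : insert j J' ⊆ J := by
          intro i hi
          rcases Finset.mem_insert.1 hi with rfl | hi
          · exact hj
          · exact hJ'sub.subset hi
        have hlow : min (1 / 2) (c / 2) * exp (-(t * (r + θ (q + 1)))) ≤ x j := by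
          have hexp := Real.exp_pos (-(t * (r + θ (q + 1))))
          by_cases hins : insert j J' = J
          · have hq1 : J.card = q + 1 := by rw [← hins, hcard]
            rw [hq1, ← hins, hsumins] at hxS
            have h1 : min (1 / 2) (c / 2) * exp (-(t * (r + θ (q + 1)))) ≤
                (c / 2) * exp (-(t * (r + θ (q + 1)))) :=
              mul_le_mul_of_nonneg_right (min_le_right _ _) hexp.le
            linarith
          · have hinT : insert j J' ∈ T := by
              rw [hTmem]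
              exact ⟨lt_of_le_of_ne hinsub hins, Finset.insert_nonempty _ _⟩
            have h1 := hmax _ (hsubF _ hinT _ (hc₁' j hinT))
            rw [V_setOn, hcard, hrootV _ hinsub, ← hrootV J' hJ'sub.subset, hsumins] at h1
            have h2 : c₁ j * exp (-(t * (r + θ (q + 1)))) - c₁ j * (x j + ∑ i ∈ J', x i)
                ≤ C * exp (-(t * (r + θ q))) := by linarith
            have h3 : exp (-(t * (r + θ (q + 1)))) - (x j + ∑ i ∈ J', x i)
                ≤ C / c₁ j * exp (-(t * (r + θ q))) := by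
              rw [div_mul_eq_mul_div, le_div_iff₀ (hc₁ j)]
              linarith
            have h4 := he1 j
            have h5 : min (1 / 2) (c / 2) * exp (-(t * (r + θ (q + 1)))) ≤
                (1 / 2) * exp (-(t * (r + θ (q + 1)))) :=
              mul_le_mul_of_nonneg_right (min_le_left _ _) hexp.le
            have h6 : (C / c₁ j + C / θ q) * exp (-(t * (r + θ q))) =
              C / c₁ j * exp (-(t * (r + θ q))) + C / θ q * exp (-(t * (r + θ q))) := by ring
            linarith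
        unfold Near
        rw [hpj]
        constructor
        · have := he3 p hp
          rw [one_mul] at this
          exact this.trans_le hlow
        · refine (hxω j hj).trans_lt ?_
          apply Real.exp_lt_exp.2
          have := hωF p hpF
          nlinarith
    -- root case
    have hE0 : ∀ᶠ t : ℝ in atTop, ∀ x : ι → ℝ, (∀ j, 0 < x j) →
        (∀ j ∈ J, x j ≤ exp (-(t * (r - ω)))) →
        c * exp (-(t * (r + θ J.card))) ≤ ∑ j ∈ J, x j →
        (∀ q ∈ F, V q t x ≤ V (root J a r) t x) →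
        ∀ j ∈ J, Near G t x (root J a r) j := by
      have hθ1 : θ 1 < G a' := by
        have := hanti (show 0 < 1 by norm_num)
        rw [hθ0] at this
        exact this
      have e1 : ∀ᶠ t : ℝ in atTop,
          1 * exp (-(t * (r + G a'))) < c * exp (-(t * (r + θ 1))) :=
        exp_dom (by linarith) _ hc
      filter_upwards [e1, eventually_gt_atTop (0 : ℝ)] with t he1 ht x hx hxω hxS hmax j hj
      have hrj : (root J a r).1 j = r := by simp [root, setOn, hj]
      have hrG : G (root J a r).1 = G a' := rfl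
      have hωr := hωF _ (Set.mem_insert (root J a r) (⋃ J' ∈ T, 𝓖 J' (θ J'.card)))
      unfold Near
      rw [hrj, hrG]
      constructor
      · by_cases hJj : ({j} : Finset ι) = J
        · have hc1 : J.card = 1 := by rw [← hJj]; simp
          rw [hc1, ← hJj, Finset.sum_singleton] at hxS
          linarith
        · have hinT : ({j} : Finset ι) ∈ T := by
            rw [hTmem]
            exact ⟨lt_of_le_of_ne (Finset.singleton_subset_iff.2 hj) hJj, Finset.singleton_nonempty _⟩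
          obtain ⟨c₁, hc₁, hc₁'⟩ := (hR _ hinT).first
          have h1 := hmax _ (hsubF _ hinT _ hc₁')
          rw [V_setOn, hrootV _ (Finset.singleton_subset_iff.2 hj), Finset.sum_singleton,
            Finset.card_singleton] at h1
          have h2 : c₁ * exp (-(t * (r + θ 1))) ≤ c₁ * x j := by linarith
          have h3 : exp (-(t * (r + θ 1))) ≤ x j := le_of_mul_le_mul_left h2 hc₁
          refine lt_of_lt_of_le ?_ h3
          apply Real.exp_lt_exp.2
          nlinarith
      · refine (hxω j hj).trans_lt ?_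
        apply Real.exp_lt_exp.2
        rw [hrG] at hωr
        nlinarith
    have hE' := (Finset.eventually_all T).2 hE
    filter_upwards [hE', hE0] with t h1 h2 x hx hxκ hxω hxS p hp hmax j hj
    rcases hmemF p hp with rfl | ⟨J', hJ', hp'⟩
    · exact h2 x hx hxω hxS hmax j hj
    · exact h1 J' hJ' x hx hxκ hxω hxS p hp' hmax j hj

/-- Main existence theorem for node families. -/
theorem exists_node (G : (ι → ℝ) → ℝ) (hG : ∀ a, 0 < G a) (κ : ℝ) (J : Finset ι)
    (hJ : J.Nonempty) (a : ι → ℝ) (r : ℝ) :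
    ∃ (θ ω : ℝ) (F : Set (Aff ι)), 0 < θ ∧ 0 < ω ∧ IsNode G κ J a r θ ω F := by
  induction J using Finset.strongInduction generalizing a r with
  | H J ih =>
    apply node_of_raise G hG κ J hJ
    intro J' hJ' hne a s τ hs
    exact raise_of_node G hG κ J' (fun a r => ih J' hJ' hne a r) a s τ hs

end Crest.Agent.R092.Rnd
end

-- ▼ part R092/RndPoly
section

/-!
Part 1 of result 92 (helper430): assembly of the polytope family.
-/

set_option autoImplicit false

namespace Crest.Agent.R092.Rnd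
open Filter Finset Real

/-- tolerance function -/
theorem exists_gap (d Q : ℕ) : ∃ G : (Fin d → ℝ) → ℝ, (∀ a, 0 < G a) ∧
    ∀ (a w : Fin d → ℝ), (∀ j, |w j - a j| ≤ G a) →
      ∀ v : Fin d → ℤ, (∀ j, |v j| ≤ (Q : ℤ)) → 0 < ∑ j, (-(a j)) * (v j : ℝ) →
        G a ≤ ∑ j, (-(w j)) * (v j : ℝ) := by
  have key : ∀ a : Fin d → ℝ, ∃ g : ℝ, 0 < g ∧ ∀ w : Fin d → ℝ, (∀ j, |w j - a j| ≤ g) →
      ∀ v : Fin d → ℤ, (∀ j, |v j| ≤ (Q : ℤ)) → 0 < ∑ j, (-(a j)) * (v j : ℝ) →
        g ≤ ∑ j, (-(w j)) * (v j : ℝ) := by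
    intro a
    classical
    set S : Set (Fin d → ℤ) := {v | ∀ j, |v j| ≤ (Q : ℤ)} with hS
    have hSfin : S.Finite := by
      have : S = Set.pi Set.univ (fun _ : Fin d => Set.Icc (-(Q : ℤ)) (Q : ℤ)) := by
        ext v
        simp only [hS, Set.mem_ofPred_eq, Set.mem_pi, Set.mem_univ, true_imp_iff, Set.mem_Icc,
          abs_le]
      rw [this]
      exact Set.Finite.pi fun _ => Set.finite_Icc (-(Q : ℤ)) (Q : ℤ)
    set f : (Fin d → ℤ) → ℝ := fun v =>
      if 0 < ∑ j, (-(a j)) * (v j : ℝ) then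
        (∑ j, (-(a j)) * (v j : ℝ)) / (1 + ∑ j, |(v j : ℝ)|) else 1 with hf
    have hden : ∀ v : Fin d → ℤ, 0 < 1 + ∑ j, |(v j : ℝ)| := by
      intro v
      have : 0 ≤ ∑ j, |(v j : ℝ)| := Finset.sum_nonneg fun j _ => abs_nonneg _
      linarith
    have hfpos : ∀ v, 0 < f v := by
      intro v
      simp only [hf]
      split_ifs with h
      · exact div_pos h (hden v)
      · exact one_pos
    obtain ⟨g, hg, hgS⟩ := exists_pos_lower f hfpos S hSfin
    refine ⟨g, hg, ?_⟩
    intro w hw v hv hpos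
    have h1 := hgS v hv
    simp only [hf, if_pos hpos] at h1
    rw [lt_div_iff₀ (hden v)] at h1
    have h2 : |∑ j, (w j - a j) * (v j : ℝ)| ≤ g * ∑ j, |(v j : ℝ)| := by
      refine (Finset.abs_sum_le_sum_abs _ _).trans ?_
      rw [Finset.mul_sum]
      apply Finset.sum_le_sum
      intro j _
      rw [abs_mul]
      exact mul_le_mul_of_nonneg_right (hw j) (abs_nonneg _)
    have h3 : ∑ j, (-(w j)) * (v j : ℝ) =
        ∑ j, (-(a j)) * (v j : ℝ) - ∑ j, (w j - a j) * (v j : ℝ) := by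
      rw [← Finset.sum_sub_distrib]
      apply Finset.sum_congr rfl
      intro j _; ring
    rw [h3]
    have h4 := (abs_le.1 h2).2
    nlinarith
  choose G hG hG' using key
  exact ⟨G, hG, hG'⟩

/-- From nearness to the compatibility estimate. -/
theorem near_compat {d Q : ℕ} (G : (Fin d → ℝ) → ℝ)
    (hG' : ∀ (a w : Fin d → ℝ), (∀ j, |w j - a j| ≤ G a) →
      ∀ v : Fin d → ℤ, (∀ j, |v j| ≤ (Q : ℤ)) → 0 < ∑ j, (-(a j)) * (v j : ℝ) →
        G a ≤ ∑ j, (-(w j)) * (v j : ℝ))
    (α : Fin d → ℝ) (t : ℝ) (ht : 0 < t) (x : Fin d → ℝ) (hx : ∀ j, 0 < x j)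
    (hlow : ∀ j, exp (-(t * (α j + G α))) ≤ x j)
    (hup : ∀ j, x j ≤ exp (-(t * (α j - G α)))) (L : ℝ) (hL : L ≤ t * G α) :
    Compat Q L (fun j => -(α j)) x := by
  intro v hv hpos
  have h1 : ∀ j, |(-(Real.log (x j)) / t) - α j| ≤ G α := by
    intro j
    have h2 := (Real.log_le_log (Real.exp_pos _) (hlow j))
    have h3 := (Real.log_le_log (hx j) (hup j))
    rw [Real.log_exp] at h2 h3
    rw [abs_le]
    constructor
    · rw [neg_le_sub_iff_le_add, ← sub_le_iff_le_add, le_div_iff₀ ht]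
      nlinarith
    · rw [sub_le_iff_le_add, div_le_iff₀ ht]
      nlinarith
  have h2 := hG' α _ h1 v hv hpos
  have h3 : ∑ j, (-(-(Real.log (x j)) / t)) * (v j : ℝ) = (∑ j, (v j : ℝ) * Real.log (x j)) / t := by
    rw [Finset.sum_div]
    apply Finset.sum_congr rfl
    intro j _
    field_simp
  rw [h3, le_div_iff₀ ht] at h2
  linarith

/-- eventually-statement transported along `L ↦ c * L` -/
theorem ev_scale {P : ℝ → Prop} (h : ∀ᶠ t in atTop, P t) (c : ℝ) (hc : 0 < c) :
    ∀ᶠ L : ℝ in atTop, P (c * L) :=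
  (tendsto_id.const_mul_atTop hc).eventually h

/-- Data of the families: inner families `F I`, outer family. -/
structure Scales (d : ℕ) (G : (Fin d → ℝ) → ℝ) where
  β : ℕ → ℝ
  θ : Finset (Fin d) → ℝ
  ω : Finset (Fin d) → ℝ
  F : Finset (Fin d) → Set (Aff (Fin d))
  θ' : ℝ
  ω' : ℝ
  F' : Set (Aff (Fin d))
  β0 : β 0 = 1
  βpos : ∀ k, 0 < β k
  βanti : StrictAnti β
  βgap : ∀ I : Finset (Fin d), I.Nonempty → ∀ p ∈ F I, β (I.card + 1) < β I.card * G p.1
  θpos : ∀ I : Finset (Fin d), I.Nonempty → 0 < θ I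
  ωpos : ∀ I : Finset (Fin d), I.Nonempty → 0 < ω I
  node : ∀ I : Finset (Fin d), I.Nonempty → IsNode G (1 / β I.card) I 0 1 (θ I) (ω I) (F I)
  θ'pos : 0 < θ'
  ω'pos : 0 < ω'
  node' : IsNode G (1 / β (d + 1)) Finset.univ 0 (-1) θ' ω' F'

theorem exists_scales (d : ℕ) (hd : 1 ≤ d) (G : (Fin d → ℝ) → ℝ) (hG : ∀ a, 0 < G a) :
    Nonempty (Scales d G) := by
  classical
  have hnode : ∀ (I : Finset (Fin d)) (β : ℝ), ∃ (θ ω : ℝ) (F : Set (Aff (Fin d))),
      I.Nonempty → (0 < θ ∧ 0 < ω ∧ IsNode G (1 / β) I 0 1 θ ω F) := by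
    intro I β
    by_cases hI : I.Nonempty
    · obtain ⟨θ, ω, F, h⟩ := exists_node G hG (1 / β) I hI 0 1
      exact ⟨θ, ω, F, fun _ => h⟩
    · exact ⟨0, 0, ∅, fun h => (hI h).elim⟩
  choose θ ω F hF using hnode
  obtain ⟨β, hβ0, hβpos, hβ⟩ := exists_seq
    (fun k b c => c < b ∧ ∀ I : Finset (Fin d), I.Nonempty → ∀ p ∈ F I b, c < b * G p.1) (by
      intro k b hb
      have hfin : (⋃ I ∈ (Finset.univ : Finset (Finset (Fin d))).filter (fun I => I.Nonempty),
          F I b).Finite := by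
        apply Set.Finite.biUnion (Finset.finite_toSet _)
        intro I hI
        simp only [Finset.coe_filter, Finset.mem_univ, true_and, Set.mem_ofPred_eq] at hI
        exact (hF I b hI).2.2.fin
      obtain ⟨c, hc, hc'⟩ := exists_pos_lower (fun p : Aff (Fin d) => b * G p.1)
        (fun p => mul_pos hb (hG _)) _ hfin
      refine ⟨min c (b / 2), lt_min hc (by linarith), ?_, ?_⟩
      · exact (min_le_right _ _).trans_lt (by linarith)
      · intro I hI p hp
        refine (min_le_left _ _).trans_lt (hc' p ?_)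
        simp only [Set.mem_iUnion, Finset.mem_filter, Finset.mem_univ, true_and]
        exact ⟨I, hI, hp⟩) 1 one_pos
  have hne : (Finset.univ : Finset (Fin d)).Nonempty := ⟨⟨0, hd⟩, Finset.mem_univ _⟩
  obtain ⟨θ', ω', F', hθ', hω', hF'⟩ := exists_node G hG (1 / β (d + 1)) Finset.univ hne 0 (-1)
  exact ⟨{ β := β, θ := fun I => θ I (β I.card), ω := fun I => ω I (β I.card),
           F := fun I => F I (β I.card), θ' := θ', ω' := ω', F' := F', β0 := hβ0, βpos := hβpos,
           βanti := strictAnti_nat_of_succ_lt fun n => (hβ n).1,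
           βgap := fun I hI p hp => (hβ I.card).2 I hI p hp,
           θpos := fun I hI => (hF I _ hI).1,
           ωpos := fun I hI => (hF I _ hI).2.1,
           node := fun I hI => (hF I _ hI).2.2,
           θ'pos := hθ', ω'pos := hω', node' := hF' }⟩

section
variable {d : ℕ} {G : (Fin d → ℝ) → ℝ} (S : Scales d G)

/-- All constraints at time `t`. -/
def Scales.Ok (t : ℝ) (x : Fin d → ℝ) : Prop :=
  (∀ I : Finset (Fin d), I.Nonempty → ∀ p ∈ S.F I,
    V p (S.β I.card * t) x ≤ -exp (-(S.β I.card * t))) ∧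
  (∀ p ∈ S.F', V p (S.β (d + 1) * t) x ≤ exp (S.β (d + 1) * t))

theorem V_root_one (I : Finset (Fin d)) (t : ℝ) (x : Fin d → ℝ) (r : ℝ) :
    V (root I 0 r) t x = - (r * ∑ j ∈ I, x j) := by
  rw [V_root]; simp

theorem Scales.sum_ge {t : ℝ} {x : Fin d → ℝ} (h : S.Ok t x) (I : Finset (Fin d))
    (hI : I.Nonempty) : exp (-(S.β I.card * t)) ≤ ∑ j ∈ I, x j := by
  have := h.1 I hI _ (S.node I hI).root_mem
  rw [V_root_one] at this
  linarith

theorem Scales.lower {t : ℝ} (ht : 0 ≤ t) {x : Fin d → ℝ} (h : S.Ok t x) (j : Fin d) :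
    exp (-t) ≤ x j := by
  have h1 := S.sum_ge h {j} (Finset.singleton_nonempty j)
  rw [Finset.sum_singleton, Finset.card_singleton] at h1
  refine le_trans ?_ h1
  apply Real.exp_le_exp.2
  have h2 : S.β 1 < S.β 0 := S.βanti (by norm_num)
  rw [S.β0] at h2
  nlinarith [S.βpos 1]

theorem Scales.pos {t : ℝ} (ht : 0 ≤ t) {x : Fin d → ℝ} (h : S.Ok t x) (j : Fin d) :
    0 < x j := (Real.exp_pos _).trans_le (S.lower ht h j)

theorem Scales.sum_le {t : ℝ} {x : Fin d → ℝ} (h : S.Ok t x) :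
    ∑ j, x j ≤ exp (S.β (d + 1) * t) := by
  have := h.2 _ S.node'.root_mem
  rw [V_root_one] at this
  linarith

theorem Scales.upper {t : ℝ} (ht : 0 ≤ t) {x : Fin d → ℝ} (h : S.Ok t x) (j : Fin d) :
    x j ≤ exp (S.β (d + 1) * t) :=
  (Finset.single_le_sum (f := x) (fun i _ => (S.pos ht h i).le) (Finset.mem_univ j)).trans
    (S.sum_le h)

/-- Exhaustion. -/
theorem Scales.eventually_ok (x : Fin d → ℝ) (hx : ∀ j, 0 < x j) :
    ∀ᶠ t in atTop, S.Ok t x := by
  have h1 : ∀ I : Finset (Fin d), ∀ᶠ t in atTop, I.Nonempty → ∀ p ∈ S.F I,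
      V p (S.β I.card * t) x ≤ -exp (-(S.β I.card * t)) := by
    intro I
    by_cases hI : I.Nonempty
    · have hN := S.node I hI
      obtain ⟨C, δ, hC, hδ, hb⟩ := hN.bound
      have hθ := S.θpos I hI
      have hsum : 0 < ∑ j ∈ I, x j := Finset.sum_pos (fun j _ => hx j) hI
      have e0 : ∀ᶠ t : ℝ in atTop, (1 + C) * exp (-(t * 1)) < (∑ j ∈ I, x j) * exp (-(t * 0)) :=
        exp_dom (by norm_num) _ hsum
      have e1 := ev_scale e0 (S.β I.card) (S.βpos _)
      filter_upwards [e1, eventually_ge_atTop (0 : ℝ)] with t he1 ht _ p hp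
      rw [V_eq I 0 p (hN.off p hp) 1, V_root_one]
      have ht' : 0 ≤ S.β I.card * t := mul_nonneg (S.βpos _).le ht
      have h2 := hb p hp _ ht'
      have h3 : 0 ≤ ∑ j ∈ I, (p.1 j - 1) * x j := by
        apply Finset.sum_nonneg
        intro j hj
        exact mul_nonneg (by linarith [hN.up p hp j hj]) (hx j).le
      have h4 : exp (-(S.β I.card * t * (1 + S.θ I + δ))) ≤ exp (-(S.β I.card * t * 1)) := by
        apply Real.exp_le_exp.2
        nlinarith
      simp only [mul_zero, neg_zero, Real.exp_zero, mul_one] at he1 h4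
      nlinarith
    · exact Eventually.of_forall fun t h => (hI h).elim
  have h2 : ∀ᶠ t in atTop, ∀ p ∈ S.F', V p (S.β (d + 1) * t) x ≤ exp (S.β (d + 1) * t) := by
    have hN := S.node'
    obtain ⟨C, δ, hC, hδ, hb⟩ := hN.bound
    have hθ := S.θ'pos
    have e0 : ∀ᶠ t : ℝ in atTop, (C) * exp (-(t * (-1 + S.θ' + δ))) < (1/2) * exp (-(t * (-1))) :=
      exp_dom (by linarith) _ (by norm_num)
    have e0' : ∀ᶠ t : ℝ in atTop, (∑ j, x j) * exp (-(t * 0)) < (1/2) * exp (-(t * (-1))) :=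
      exp_dom (by norm_num) _ (by norm_num)
    have e1 := ev_scale e0 (S.β (d + 1)) (S.βpos _)
    have e2 := ev_scale e0' (S.β (d + 1)) (S.βpos _)
    filter_upwards [e1, e2, eventually_ge_atTop (0 : ℝ)] with t he1 he2 ht p hp
    rw [V_eq Finset.univ 0 p (hN.off p hp) (-1), V_root_one]
    have ht' : 0 ≤ S.β (d + 1) * t := mul_nonneg (S.βpos _).le ht
    have h2 := hb p hp _ ht'
    have h3 : 0 ≤ ∑ j, (p.1 j - (-1)) * x j := by
      apply Finset.sum_nonneg
      intro j hj
      exact mul_nonneg (by linarith [hN.up p hp j hj]) (hx j).le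
    simp only [mul_zero, neg_zero, Real.exp_zero, mul_one, mul_neg, neg_neg] at he1 he2 h2
    linarith
  filter_upwards [eventually_all.2 h1, h2] with t h1 h2
  exact ⟨h1, h2⟩

/-- Compatibility on inner facets. -/
theorem Scales.inner_near (hG : ∀ a, 0 < G a) (I : Finset (Fin d)) (hI : I.Nonempty) :
    ∀ᶠ t in atTop, ∀ x, S.Ok t x → ∀ p ∈ S.F I,
      V p (S.β I.card * t) x = -exp (-(S.β I.card * t)) →
      ∀ j, exp (-(S.β I.card * t * (p.1 j + G p.1))) ≤ x j ∧
        x j ≤ exp (-(S.β I.card * t * (p.1 j - G p.1))) := by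
  classical
  have hN := S.node I hI
  obtain ⟨C, δ, hC, hδ, hb⟩ := hN.bound
  have hθ := S.θpos I hI
  have hω := S.ωpos I hI
  have hβI := S.βpos I.card
  -- round at scaled time
  have r1 := ev_scale (hN.round 1 one_pos) _ hβI
  have e0 : ∀ᶠ t : ℝ in atTop, (1 + C) * exp (-(t * 1)) < 1 * exp (-(t * (1 - S.ω I))) :=
    exp_dom (by linarith) _ one_pos
  have e1 := ev_scale e0 _ hβI
  -- dominance for `j ∉ I`
  have hβ1 : S.β (I.card + 1) < S.β I.card := S.βanti (by omega)
  have e2 : ∀ᶠ t : ℝ in atTop, (1 + C) * exp (-(t * S.β I.card)) <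
      (1 / 2) * exp (-(t * S.β (I.card + 1))) := exp_dom hβ1 _ (by norm_num)
  have e3 : ∀ p ∈ S.F I, ∀ᶠ t : ℝ in atTop, 1 * exp (-(t * (S.β I.card * G p.1))) <
      (1 / 2) * exp (-(t * S.β (I.card + 1))) := fun p hp =>
    exp_dom (S.βgap I hI p hp) _ (by norm_num)
  have e3' := (Set.Finite.eventually_all hN.fin).2 e3
  filter_upwards [r1, e1, e2, e3', eventually_gt_atTop (0 : ℝ)] with t hr1 he1 he2 he3 ht x hok p hp
    hact
  have hxpos : ∀ j, 0 < x j := S.pos ht.le hok
  have ht' : 0 < S.β I.card * t := mul_pos hβI ht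
  have hmax : ∀ q ∈ S.F I, V q (S.β I.card * t) x ≤ V p (S.β I.card * t) x := by
    intro q hq
    rw [hact]
    exact hok.1 I hI q hq
  have hsum_ge := S.sum_ge hok I hI
  -- upper bound on the sum
  have hsum_le : ∑ j ∈ I, x j ≤ (1 + C) * exp (-(S.β I.card * t * 1)) := by
    have h1 := V_eq I 0 p (hN.off p hp) 1 (S.β I.card * t) x
    rw [V_root_one, hact] at h1
    have h2 := hb p hp _ ht'.le
    have h3 : 0 ≤ ∑ j ∈ I, (p.1 j - 1) * x j := by
      apply Finset.sum_nonneg
      intro j hj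
      exact mul_nonneg (by linarith [hN.up p hp j hj]) (hxpos j).le
    have h4 : exp (-(S.β I.card * t * (1 + S.θ I + δ))) ≤ exp (-(S.β I.card * t * 1)) := by
      apply Real.exp_le_exp.2
      nlinarith
    simp only [mul_one] at h4 ⊢
    nlinarith
  have hκ : ∀ j ∈ I, exp (-(S.β I.card * t * (1 / S.β I.card))) ≤ x j := by
    intro j _
    have h1 : S.β I.card * t * (1 / S.β I.card) = t := by
      field_simp
    rw [h1]
    exact S.lower ht.le hok j
  have hω' : ∀ j ∈ I, x j ≤ exp (-(S.β I.card * t * (1 - S.ω I))) := by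
    intro j hj
    have h2 : x j ≤ ∑ j ∈ I, x j :=
      Finset.single_le_sum (f := x) (fun i _ => (hxpos i).le) hj
    linarith
  have hlow : 1 * exp (-(S.β I.card * t * (1 + S.θ I))) ≤ ∑ j ∈ I, x j := by
    rw [one_mul]
    refine le_trans ?_ hsum_ge
    apply Real.exp_le_exp.2
    nlinarith
  intro j
  by_cases hj : j ∈ I
  · have := hr1 x hxpos hκ hω' hlow p hp hmax j hj
    exact ⟨this.1.le, this.2.le⟩
  · have hpj : p.1 j = 0 := by
      rw [hN.off p hp j hj]; rfl
    rw [hpj]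
    constructor
    · have h1 := S.sum_ge hok (insert j I) (Finset.insert_nonempty _ _)
      rw [Finset.sum_insert hj, Finset.card_insert_of_notMem hj] at h1
      have h2 := he3 p hp
      have h3 : exp (-(S.β I.card * t * 1)) = exp (-(t * S.β I.card)) := by
        congr 1; ring
      rw [h3] at hsum_le
      have h4 : exp (-(S.β (I.card + 1) * t)) = exp (-(t * S.β (I.card + 1))) := by
        congr 1; ring
      rw [h4] at h1
      have h5 : exp (-(S.β I.card * t * (0 + G p.1))) = exp (-(t * (S.β I.card * G p.1))) := by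
        congr 1; ring
      rw [h5]
      linarith
    · refine (S.upper ht.le hok j).trans ?_
      apply Real.exp_le_exp.2
      have hcard : I.card + 1 ≤ d + 1 := by
        have := Finset.card_le_univ I
        simp at this
        omega
      have h1 : S.β (d + 1) ≤ S.β (I.card + 1) := S.βanti.antitone hcard
      have h2 := S.βgap I hI p hp
      have h3 : S.β (d + 1) ≤ S.β I.card * G p.1 := by linarith
      nlinarith

/-- Compatibility on outer facets. -/
theorem Scales.outer_near (hG : ∀ a, 0 < G a) :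
    ∀ᶠ t in atTop, ∀ x, S.Ok t x → ∀ p ∈ S.F',
      V p (S.β (d + 1) * t) x = exp (S.β (d + 1) * t) →
      ∀ j, exp (-(S.β (d + 1) * t * (p.1 j + G p.1))) ≤ x j ∧
        x j ≤ exp (-(S.β (d + 1) * t * (p.1 j - G p.1))) := by
  classical
  have hN := S.node'
  obtain ⟨C, δ, hC, hδ, hb⟩ := hN.bound
  have hθ := S.θ'pos
  have hω := S.ω'pos
  have hβ := S.βpos (d + 1)
  have r1 := ev_scale (hN.round (1 / 2) (by norm_num)) _ hβ
  have e0 : ∀ᶠ t : ℝ in atTop, C * exp (-(t * (-1 + S.θ' + δ))) < (1 / 2) * exp (-(t * (-1))) :=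
    exp_dom (by linarith) _ (by norm_num)
  have e1 := ev_scale e0 _ hβ
  filter_upwards [r1, e1, eventually_gt_atTop (0 : ℝ)] with t hr1 he1 ht x hok p hp hact
  have hxpos : ∀ j, 0 < x j := S.pos ht.le hok
  have ht' : 0 < S.β (d + 1) * t := mul_pos hβ ht
  have hmax : ∀ q ∈ S.F', V q (S.β (d + 1) * t) x ≤ V p (S.β (d + 1) * t) x := by
    intro q hq
    rw [hact]
    exact hok.2 q hq
  have hexp1 : exp (-(S.β (d + 1) * t * (-1))) = exp (S.β (d + 1) * t) := by
    congr 1; ring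
  rw [hexp1] at he1
  have hsum_ge : 1 / 2 * exp (S.β (d + 1) * t) ≤ ∑ j, x j := by
    have h1 := V_eq Finset.univ 0 p (hN.off p hp) (-1) (S.β (d + 1) * t) x
    rw [V_root_one, hact] at h1
    have h2 := hb p hp _ ht'.le
    have h3 : 0 ≤ ∑ j, (p.1 j - (-1)) * x j := by
      apply Finset.sum_nonneg
      intro j hj
      exact mul_nonneg (by linarith [hN.up p hp j hj]) (hxpos j).le
    linarith
  have hκ : ∀ j ∈ (Finset.univ : Finset (Fin d)),
      exp (-(S.β (d + 1) * t * (1 / S.β (d + 1)))) ≤ x j := by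
    intro j _
    have h1 : S.β (d + 1) * t * (1 / S.β (d + 1)) = t := by
      field_simp
    rw [h1]
    exact S.lower ht.le hok j
  have hω' : ∀ j ∈ (Finset.univ : Finset (Fin d)),
      x j ≤ exp (-(S.β (d + 1) * t * (-1 - S.ω'))) := by
    intro j hj
    refine (S.upper ht.le hok j).trans ?_
    apply Real.exp_le_exp.2
    nlinarith
  have hlow : 1 / 2 * exp (-(S.β (d + 1) * t * (-1 + S.θ'))) ≤ ∑ j, x j := by
    refine le_trans ?_ hsum_ge
    apply mul_le_mul_of_nonneg_left _ (by norm_num)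
    apply Real.exp_le_exp.2
    nlinarith
  intro j
  have := hr1 x hxpos hκ hω' hlow p hp hmax j (Finset.mem_univ j)
  exact ⟨this.1.le, this.2.le⟩

end

end Crest.Agent.R092.Rnd
end

-- ▼ part R092/RndPart1
section

/-!
Part 1 of result 92 (helper430): the proposition `Part1`.
-/

set_option autoImplicit false

namespace Crest.Agent.R092
open Filter Finset Real Rnd

theorem part1 : Part1 := by
  classical
  intro d hd Q
  obtain ⟨G, hG, hG'⟩ := exists_gap d Q
  obtain ⟨S⟩ := exists_scales d hd G hG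
  -- constant `Λ`
  have hfin1 : ∀ I : Finset (Fin d), I.Nonempty → (S.F I).Finite := fun I hI => (S.node I hI).fin
  obtain ⟨c₀, hc₀, hc₀'⟩ := exists_pos_lower (fun q : ℕ × Aff (Fin d) => S.β q.1 * G q.2.1)
    (fun q => mul_pos (S.βpos _) (hG _))
    ((⋃ I ∈ (Finset.univ : Finset (Finset (Fin d))).filter (fun I => I.Nonempty),
        (fun p => (I.card, p)) '' S.F I) ∪ (fun p => (d + 1, p)) '' S.F') (by
      apply Set.Finite.union
      · apply Set.Finite.biUnion (Finset.finite_toSet _)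
        intro I hI
        simp only [Finset.coe_filter, Finset.mem_univ, true_and, Set.mem_ofPred_eq] at hI
        exact (hfin1 I hI).image _
      · exact S.node'.fin.image _)
  set Λ : ℝ := 1 / c₀ with hΛ
  have hΛpos : 0 < Λ := by positivity
  -- index type
  let T1 : Set (Finset (Fin d) × Aff (Fin d)) := {q | q.1.Nonempty ∧ q.2 ∈ S.F q.1}
  have hT1 : T1.Finite := by
    have : T1 = ⋃ I ∈ (Finset.univ : Finset (Finset (Fin d))).filter (fun I => I.Nonempty),
        (fun p => (I, p)) '' S.F I := by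
      ext ⟨I, p⟩
      simp only [T1, Set.mem_ofPred_eq, Finset.mem_filter, Finset.mem_univ, true_and,
        Set.mem_iUnion, Set.mem_image, Prod.mk.injEq]
      constructor
      · rintro ⟨h1, h2⟩
        exact ⟨I, h1, p, h2, rfl, rfl⟩
      · rintro ⟨I', h1, p', h2, rfl, rfl⟩
        exact ⟨h1, h2⟩
    rw [this]
    apply Set.Finite.biUnion (Finset.finite_toSet _)
    intro I hI
    simp only [Finset.coe_filter, Finset.mem_univ, true_and, Set.mem_ofPred_eq] at hI
    exact (hfin1 I hI).image _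
  have hF'fin : S.F'.Finite := S.node'.fin
  haveI : Fintype T1 := hT1.fintype
  haveI : Fintype S.F' := hF'fin.fintype
  let a : T1 ⊕ S.F' → Fin d → ℝ := fun i => match i with
    | Sum.inl q => fun j => -(q.1.2.1 j)
    | Sum.inr p => fun j => -(p.1.1 j)
  let b : T1 ⊕ S.F' → ℝ → ℝ := fun i => match i with
    | Sum.inl q => fun L => -exp (-(S.β q.1.1.card * (Λ * L))) - q.1.2.2 (S.β q.1.1.card * (Λ * L))
    | Sum.inr p => fun L => exp (S.β (d + 1) * (Λ * L)) - p.1.2 (S.β (d + 1) * (Λ * L))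
  have hsat : ∀ L x, Sat a b L x ↔ S.Ok (Λ * L) x := by
    intro L x
    unfold Sat Scales.Ok
    constructor
    · intro h
      refine ⟨fun I hI p hp => ?_, fun p hp => ?_⟩
      · have := h (Sum.inl ⟨(I, p), hI, hp⟩)
        simp only [a, b, neg_mul, Finset.sum_neg_distrib] at this
        unfold V
        linarith
      · have := h (Sum.inr ⟨p, hp⟩)
        simp only [a, b, neg_mul, Finset.sum_neg_distrib] at this
        unfold V
        linarith
    · rintro ⟨h1, h2⟩ i
      rcases i with ⟨⟨I, p⟩, hI, hp⟩ | ⟨p, hp⟩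
      · have := h1 I hI p hp
        simp only [a, b, neg_mul, Finset.sum_neg_distrib]
        unfold V at this
        linarith
      · have := h2 p hp
        simp only [a, b, neg_mul, Finset.sum_neg_distrib]
        unfold V at this
        linarith
  have hscale : ∀ {P : ℝ → Prop}, (∀ᶠ t in atTop, P t) → ∀ᶠ L : ℝ in atTop, P (Λ * L) :=
    fun h => ev_scale h Λ hΛpos
  refine ⟨T1 ⊕ S.F', inferInstance, a, b, Λ, ?_, ?_, ?_, ?_⟩
  · -- smooth
    rintro (⟨⟨I, p⟩, hI, hp⟩ | ⟨p, hp⟩)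
    · have h1 := (S.node I hI).smooth p hp
      simp only [b]
      fun_prop
    · have h1 := S.node'.smooth p hp
      simp only [b]
      fun_prop
  · intro x hx
    filter_upwards [hscale (S.eventually_ok x hx)] with L hL
    exact (hsat L x).2 hL
  · filter_upwards [eventually_ge_atTop (0 : ℝ)] with L hL x hx j
    have hok := (hsat L x).1 hx
    have ht : 0 ≤ Λ * L := mul_nonneg hΛpos.le hL
    refine ⟨S.lower ht hok j, (S.upper ht hok j).trans ?_⟩
    apply Real.exp_le_exp.2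
    have h1 : S.β (d + 1) ≤ S.β 0 := S.βanti.antitone (by omega)
    rw [S.β0] at h1
    nlinarith
  · have hin : ∀ I : Finset (Fin d), ∀ᶠ t in atTop, I.Nonempty → ∀ x, S.Ok t x → ∀ p ∈ S.F I,
        V p (S.β I.card * t) x = -exp (-(S.β I.card * t)) →
        ∀ j, exp (-(S.β I.card * t * (p.1 j + G p.1))) ≤ x j ∧
          x j ≤ exp (-(S.β I.card * t * (p.1 j - G p.1))) := by
      intro I
      by_cases hI : I.Nonempty
      · filter_upwards [S.inner_near hG I hI] with t ht _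
        exact ht
      · exact Eventually.of_forall fun t h => (hI h).elim
    filter_upwards [hscale (eventually_all.2 hin), hscale (S.outer_near hG),
      eventually_gt_atTop (0 : ℝ)] with L h1 h2 hL x hx i hact
    have hok := (hsat L x).1 hx
    have ht : 0 < Λ * L := mul_pos hΛpos hL
    have hxpos : ∀ j, 0 < x j := S.pos ht.le hok
    rcases i with ⟨⟨I, p⟩, hI, hp⟩ | ⟨p, hp⟩
    · simp only [a, b, neg_mul, Finset.sum_neg_distrib] at hact
      have hV : V p (S.β I.card * (Λ * L)) x = -exp (-(S.β I.card * (Λ * L))) := by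
        unfold V
        linarith
      have h3 := h1 I hI x hok p hp hV
      have h4 : c₀ < S.β I.card * G p.1 := by
        apply hc₀' (I.card, p)
        left
        simp only [Set.mem_iUnion, Finset.mem_filter, Finset.mem_univ, true_and]
        exact ⟨I, hI, p, hp, rfl⟩
      refine near_compat G hG' p.1 (S.β I.card * (Λ * L)) (mul_pos (S.βpos _) ht) x hxpos
        (fun j => (h3 j).1) (fun j => (h3 j).2) L ?_
      have h5 : S.β I.card * (Λ * L) * G p.1 = (S.β I.card * G p.1) * Λ * L := by ring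
      rw [h5]
      have h6 : 1 ≤ (S.β I.card * G p.1) * Λ := by
        rw [hΛ, mul_one_div, one_le_div hc₀]
        exact h4.le
      nlinarith
    · simp only [a, b, neg_mul, Finset.sum_neg_distrib] at hact
      have hV : V p (S.β (d + 1) * (Λ * L)) x = exp (S.β (d + 1) * (Λ * L)) := by
        unfold V
        linarith
      have h3 := h2 x hok p hp hV
      have h4 : c₀ < S.β (d + 1) * G p.1 := by
        apply hc₀' (d + 1, p)
        right
        exact ⟨p, hp, rfl⟩
      refine near_compat G hG' p.1 (S.β (d + 1) * (Λ * L)) (mul_pos (S.βpos _) ht) x hxpos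
        (fun j => (h3 j).1) (fun j => (h3 j).2) L ?_
      have h5 : S.β (d + 1) * (Λ * L) * G p.1 = (S.β (d + 1) * G p.1) * Λ * L := by ring
      rw [h5]
      have h6 : 1 ≤ (S.β (d + 1) * G p.1) * Λ := by
        rw [hΛ, mul_one_div, one_le_div hc₀]
        exact h4.le
      nlinarith

end Crest.Agent.R092
end

-- ▼ part R092/Dyn
section

/-!
Result 92, Part 3: dynamics of an abstract `C¹` field with a family of moving polytopes.
-/

set_option autoImplicit false

namespace Crest.Agent.R092.Dyn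

open Filter Topology Set Crest.AnalysisR.MassAction

/-- A function with negative right derivative is eventually smaller on the right. -/
lemma eventually_lt_of_deriv_neg {f : ℝ → ℝ} {m t : ℝ} (hf : HasDerivWithinAt f m (Ici t) t)
    (hm : m < 0) : ∀ᶠ s in 𝓝[>] t, f s < f t := by
  have h1 : Tendsto (slope f t) (𝓝[>] t) (𝓝 m) := by
    have := hasDerivWithinAt_iff_tendsto_slope.1 hf
    rwa [Ici_sdiff_left] at this
  have h2 := h1.eventually (gt_mem_nhds hm)
  filter_upwards [h2, self_mem_nhdsWithin] with s hs hst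
  rw [slope_def_field, div_lt_iff₀ (sub_pos.2 hst)] at hs
  linarith

/-- First exit lemma. -/
lemma exit {ι : Type} [Fintype ι] {T : ℝ} (f : ι → ℝ → ℝ)
    (hc : ∀ i, ContinuousOn (f i) (Icc 0 T)) (h0 : ∀ i, f i 0 ≤ 0)
    (hd : ∀ t ∈ Ico 0 T, (∀ i, f i t ≤ 0) → ∀ i, f i t = 0 → ∀ᶠ s in 𝓝[>] t, f i s ≤ 0) :
    ∀ t ∈ Icc 0 T, ∀ i, f i t ≤ 0 := by
  have key : Icc 0 T ⊆ {t | ∀ i, f i t ≤ 0} := by
    refine IsClosed.Icc_subset_of_forall_mem_nhdsWithin ?_ h0 ?_
    · have h1 : {t | ∀ i, f i t ≤ 0} ∩ Icc 0 T = Icc 0 T ∩ ⋂ i, (Icc 0 T ∩ f i ⁻¹' Iic 0) := by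
        ext t
        simp only [mem_inter_iff, mem_ofPred_eq, mem_iInter, mem_preimage, mem_Iic]
        constructor
        · rintro ⟨h, ht⟩
          exact ⟨ht, fun i => ⟨ht, h i⟩⟩
        · rintro ⟨ht, h⟩
          exact ⟨fun i => (h i).2, ht⟩
      rw [h1]
      exact isClosed_Icc.inter (isClosed_iInter fun i =>
        (hc i).preimage_isClosed_of_isClosed isClosed_Icc isClosed_Iic)
    · rintro t ⟨ht, htT⟩
      have ht' : ∀ i, f i t ≤ 0 := ht
      have hall : ∀ i, ∀ᶠ s in 𝓝[>] t, f i s ≤ 0 := by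
        intro i
        rcases (ht' i).lt_or_eq with hlt | heq
        · have hcw : ContinuousWithinAt (f i) (Icc 0 T) t := hc i t (Ico_subset_Icc_self htT)
          have h2 : ∀ᶠ s in 𝓝[Icc 0 T] t, f i s < 0 := hcw.eventually (gt_mem_nhds hlt)
          have h3 : 𝓝[>] t ≤ 𝓝[Icc 0 T] t := by
            refine nhdsWithin_le_of_mem ?_
            exact mem_of_superset (Ioc_mem_nhdsGT htT.2)
              (fun s hs => ⟨htT.1.trans hs.1.le, hs.2⟩)
          have h4 : ∀ᶠ s in 𝓝[>] t, f i s < 0 := h3 h2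
          exact h4.mono fun s hs => le_of_lt hs
        · exact hd t htT ht' i heq
      exact (eventually_all.2 hall)
  exact fun t ht => key ht

lemma hasDeriv_dot {d : ℕ} (w : Fin d → ℝ) {x : ℝ → Fin d → ℝ} {x' : Fin d → ℝ} {s : Set ℝ} {t : ℝ}
    (h : HasDerivWithinAt x x' s t) :
    HasDerivWithinAt (fun t => ∑ j, w j * x t j) (∑ j, w j * x' j) s t :=
  HasDerivWithinAt.fun_sum fun j _ => ((hasDerivWithinAt_pi.1 h) j).const_mul (w j)

lemma IsForwardSolution.hasDeriv_Ici {d : ℕ} {F : (Fin d → ℝ) → (Fin d → ℝ)}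
    {x : ℝ → (Fin d → ℝ)} (hx : IsForwardSolution F x) {t : ℝ} (ht : 0 ≤ t) :
    HasDerivWithinAt x (F (x t)) (Ici t) t :=
  (hx t ht).mono (Ici_subset_Ici.2 ht)

lemma IsForwardSolution.continuousOn {d : ℕ} {F : (Fin d → ℝ) → (Fin d → ℝ)}
    {x : ℝ → (Fin d → ℝ)} (hx : IsForwardSolution F x) : ContinuousOn x (Ici 0) :=
  fun t ht => (hx t ht).continuousWithinAt

lemma IsForwardSolution.shift {d : ℕ} {F : (Fin d → ℝ) → (Fin d → ℝ)}
    {x : ℝ → (Fin d → ℝ)} (hx : IsForwardSolution F x) {τ : ℝ} (hτ : 0 ≤ τ) :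
    IsForwardSolution F (fun t => x (t + τ)) := by
  intro t ht
  have h1 := hx (t + τ) (by positivity)
  have h2 : HasDerivWithinAt (fun t : ℝ => t + τ) 1 (Ici 0) t :=
    (hasDerivWithinAt_id t _).add_const τ
  have h3 := HasDerivWithinAt.scomp t h1 h2 (fun s hs => by
    have : (0 : ℝ) ≤ s := hs
    show (0 : ℝ) ≤ s + τ
    positivity)
  rw [one_smul] at h3
  exact h3

/-- Solutions stay in their class. -/
lemma sub_mem_of_solution {d : ℕ} {F : (Fin d → ℝ) → (Fin d → ℝ)} {S : Submodule ℝ (Fin d → ℝ)}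
    (hFS : ∀ x, F x ∈ S) {x : ℝ → (Fin d → ℝ)} (hx : IsForwardSolution F x) {t : ℝ}
    (ht : 0 ≤ t) : x t - x 0 ∈ S := by
  have hScl : IsClosed (S : Set (Fin d → ℝ)) := S.closed_of_finiteDimensional
  have h1 : ∀ s ∈ Icc 0 t, S.mkQL (x s) = S.mkQL (x 0) := by
    refine constant_of_has_deriv_right_zero (f := fun s => S.mkQL (x s)) ?_ ?_
    · exact S.mkQL.continuous.comp_continuousOn
        ((IsForwardSolution.continuousOn hx).mono fun s hs => hs.1)
    · intro s hs
      have h2 := (S.mkQL.hasFDerivAt (x := x s)).comp_hasDerivWithinAt s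
        (IsForwardSolution.hasDeriv_Ici hx hs.1)
      have h3 : S.mkQL (F (x s)) = 0 := by
        show S.mkQ (F (x s)) = 0
        rw [Submodule.mkQ_apply, Submodule.Quotient.mk_eq_zero]
        exact hFS _
      rw [h3] at h2
      exact h2
  have h4 := h1 t ⟨ht, le_rfl⟩
  rw [← sub_eq_zero, ← map_sub] at h4
  have h5 : S.mkQ (x t - x 0) = 0 := h4
  rwa [Submodule.mkQ_apply, Submodule.Quotient.mk_eq_zero] at h5

/-- Moving polytope lemma. -/
theorem move {d : ℕ} {F : (Fin d → ℝ) → (Fin d → ℝ)} {S : Submodule ℝ (Fin d → ℝ)}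
    (hFS : ∀ x, F x ∈ S) {c : Fin d → ℝ} {ι : Type} [Fintype ι] {a : ι → Fin d → ℝ}
    {b : ι → ℝ → ℝ} (hb : ∀ i, ContDiff ℝ 1 (b i)) {L₁ ε T : ℝ}
    (hc : ∀ t ∈ Icc 0 T, Sat a b (L₁ - ε * t) c)
    (hact : ∀ t ∈ Ico 0 T, ∀ x, Sat a b (L₁ - ε * t) x → x - c ∈ S → ∀ i,
      ∑ j, a i j * x j = b i (L₁ - ε * t) →
      (∀ s ∈ S, ∑ j, a i j * s j = 0) ∨ ∑ j, a i j * F x j + ε * deriv (b i) (L₁ - ε * t) < 0)
    {x : ℝ → (Fin d → ℝ)} (hx : IsForwardSolution F x) (hx0 : x 0 - c ∈ S)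
    (hsat : Sat a b L₁ (x 0)) :
    ∀ t ∈ Icc 0 T, Sat a b (L₁ - ε * t) (x t) := by
  have hxc : ∀ t, 0 ≤ t → x t - c ∈ S := by
    intro t ht
    have h1 := sub_mem_of_solution hFS hx ht
    have h2 := S.add_mem h1 hx0
    simpa using h2
  -- the functions
  let f : ι → ℝ → ℝ := fun i t => (∑ j, a i j * x t j) - b i (L₁ - ε * t)
  have hLd : ∀ t : ℝ, HasDerivAt (fun t : ℝ => L₁ - ε * t) (-ε) t := by
    intro t
    have := ((hasDerivAt_id t).const_mul ε).const_sub L₁
    simpa using this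
  have hfd : ∀ i t, 0 ≤ t → HasDerivWithinAt (f i)
      ((∑ j, a i j * F (x t) j) - deriv (b i) (L₁ - ε * t) * (-ε)) (Ici t) t := by
    intro i t ht
    have h1 := hasDeriv_dot (a i) (IsForwardSolution.hasDeriv_Ici hx ht)
    have h2 : HasDerivAt (b i) (deriv (b i) (L₁ - ε * t)) (L₁ - ε * t) :=
      ((hb i).differentiable one_ne_zero).differentiableAt.hasDerivAt
    have h3 := (h2.comp t (hLd t)).hasDerivWithinAt (s := Ici t)
    exact h1.sub h3
  have hfc : ∀ i, ContinuousOn (f i) (Icc 0 T) := by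
    intro i
    have hxcont : ContinuousOn x (Icc 0 T) :=
      (IsForwardSolution.continuousOn hx).mono fun s hs => hs.1
    have h1 : ContinuousOn (fun t => ∑ j, a i j * x t j) (Icc 0 T) := by
      refine continuousOn_finsetSum _ fun j _ => ?_
      exact continuousOn_const.mul ((continuous_apply j).comp_continuousOn hxcont)
    have h2 : Continuous (fun t => b i (L₁ - ε * t)) := (hb i).continuous.comp (by fun_prop)
    exact h1.sub h2.continuousOn
  have key := exit f hfc (fun i => by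
    have := hsat i
    simp only [f, mul_zero, sub_zero]
    linarith) (by
    intro t ht hle i hi
    have hSat : Sat a b (L₁ - ε * t) (x t) := fun i => by
      have := hle i
      simp only [f] at this
      linarith
    have heq : ∑ j, a i j * x t j = b i (L₁ - ε * t) := by
      simp only [f] at hi
      linarith
    rcases hact t ht (x t) hSat (hxc t ht.1) i heq with hperp | hneg
    · -- constant constraint
      have h1 : ∀ s, 0 ≤ s → ∑ j, a i j * x s j = ∑ j, a i j * c j := by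
        intro s hs
        have h2 := hperp _ (hxc s hs)
        simp only [Pi.sub_apply, mul_sub, Finset.sum_sub_distrib] at h2
        linarith
      filter_upwards [Ioc_mem_nhdsGT ht.2] with s hs
      have hs0 : 0 ≤ s := ht.1.trans hs.1.le
      have h3 := hc s ⟨hs0, hs.2⟩ i
      simp only [f]
      rw [h1 s hs0]
      linarith
    · have h1 := eventually_lt_of_deriv_neg (hfd i t ht.1) (by linarith)
      filter_upwards [h1] with s hs
      rw [hi] at hs
      exact hs.le)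
  intro t ht i
  have := key t ht i
  simp only [f] at this
  linarith

/-- Existence of global solutions for bounded Lipschitz fields. -/
theorem exists_global {d : ℕ} (G : (Fin d → ℝ) → (Fin d → ℝ)) {K : NNReal}
    (hG : LipschitzWith K G) {M : NNReal} (hM : ∀ x, ‖G x‖ ≤ M) (x₀ : Fin d → ℝ) :
    ∃ x : ℝ → (Fin d → ℝ), IsForwardSolution G x ∧ x 0 = x₀ := by
  have hloc : ∀ N : ℕ, ∃ α : ℝ → (Fin d → ℝ), α 0 = x₀ ∧
      ∀ t ∈ Icc (0 : ℝ) (N + 1), HasDerivWithinAt α (G (α t)) (Icc (0 : ℝ) (N + 1)) t := by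
    intro N
    have h0 : (0 : ℝ) ∈ Icc (0 : ℝ) (N + 1) := ⟨le_rfl, by positivity⟩
    have hPL : IsPicardLindelof (fun _ => G) (tmin := 0) (tmax := (N + 1 : ℝ)) ⟨0, h0⟩ x₀
        (M * (N + 1)) 0 M K := by
      refine IsPicardLindelof.of_time_independent (fun x _ => hM x) hG.lipschitzOnWith ?_
      simp only [sub_zero, sub_self]
      rw [max_eq_left (by positivity)]
      simp
    obtain ⟨α, hα0, hα⟩ := hPL.exists_eq_forall_mem_Icc_hasDerivWithinAt₀
    exact ⟨α, hα0, hα⟩
  choose α hα0 hα using hloc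
  -- agreement
  have hagree : ∀ N M : ℕ, N ≤ M → EqOn (α N) (α M) (Icc (0 : ℝ) (N + 1)) := by
    intro N M hNM
    have hNM' : (N : ℝ) + 1 ≤ M + 1 := by
      have : (N : ℝ) ≤ M := by exact_mod_cast hNM
      linarith
    refine ODE_solution_unique (v := fun _ => G) (fun _ => hG) ?_ ?_ ?_ ?_ ?_
    · exact fun t ht => (hα N t ht).continuousWithinAt
    · intro t ht
      refine (hα N t (Ico_subset_Icc_self ht)).mono_of_mem_nhdsWithin ?_
      exact mem_of_superset (Icc_mem_nhdsGE ht.2) fun s hs => ⟨ht.1.trans hs.1, hs.2⟩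
    · exact fun t ht => ((hα M t ⟨ht.1, ht.2.trans hNM'⟩).continuousWithinAt).mono
        (Icc_subset_Icc_right hNM')
    · intro t ht
      have ht' : t ∈ Ico (0 : ℝ) (M + 1) := ⟨ht.1, ht.2.trans_le hNM'⟩
      refine (hα M t (Ico_subset_Icc_self ht')).mono_of_mem_nhdsWithin ?_
      exact mem_of_superset (Icc_mem_nhdsGE ht'.2) fun s hs => ⟨ht'.1.trans hs.1, hs.2⟩
    · rw [hα0, hα0]
  let x : ℝ → (Fin d → ℝ) := fun t => α ⌈t⌉₊ t
  have hx : ∀ N : ℕ, EqOn x (α N) (Icc (0 : ℝ) N) := by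
    intro N t ht
    have h1 : ⌈t⌉₊ ≤ N := Nat.ceil_le.2 ht.2
    refine hagree _ _ h1 ⟨ht.1, ?_⟩
    have := Nat.le_ceil t
    linarith
  refine ⟨x, fun t ht => ?_, ?_⟩
  · obtain ⟨N, hN⟩ := exists_nat_gt t
    have h1 : HasDerivWithinAt (α N) (G (α N t)) (Ici 0) t := by
      have hN1 : t < (N : ℝ) + 1 := by linarith
      refine (hα N t ⟨ht, hN1.le⟩).mono_of_mem_nhdsWithin ?_
      rw [← Ici_inter_Iic]
      exact inter_mem self_mem_nhdsWithin (mem_nhdsWithin_of_mem_nhds (Iic_mem_nhds hN1))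
    have hxt : x t = α N t := hx N ⟨ht, hN.le⟩
    rw [hxt]
    refine h1.congr_of_eventuallyEq ?_ hxt
    have h2 : Icc (0 : ℝ) N ∈ 𝓝[Ici 0] t := by
      rw [← Ici_inter_Iic]
      exact inter_mem self_mem_nhdsWithin (mem_nhdsWithin_of_mem_nhds (Iic_mem_nhds hN))
    filter_upwards [h2] with s hs
    exact hx N hs
  · show α ⌈(0 : ℝ)⌉₊ 0 = x₀
    exact hα0 _

/-- Uniform speed of the moving polytope. -/
lemma exists_eps {d : ℕ} {F : (Fin d → ℝ) → (Fin d → ℝ)} (hF : Continuous F)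
    {S : Submodule ℝ (Fin d → ℝ)} {ι : Type} [Fintype ι] {a : ι → Fin d → ℝ}
    {b : ι → ℝ → ℝ} (hb : ∀ i, ContDiff ℝ 1 (b i)) {D L₀ L₁ : ℝ}
    (hbox : ∀ L, L₀ ≤ L → ∀ x, Sat a b L x →
      ∀ j, Real.exp (-(D * L)) ≤ x j ∧ x j ≤ Real.exp (D * L))
    (hact : ∀ L, L₀ ≤ L → ∀ x, Sat a b L x → ∀ i, ∑ j, a i j * x j = b i L →
      (∀ s ∈ S, ∑ j, a i j * s j = 0) ∨ ∑ j, a i j * F x j < 0) :
    ∃ ε : ℝ, 0 < ε ∧ ∀ L ∈ Icc L₀ L₁, ∀ x, Sat a b L x → ∀ i, ∑ j, a i j * x j = b i L →
      (∀ s ∈ S, ∑ j, a i j * s j = 0) ∨ ∑ j, a i j * F x j + ε * deriv (b i) L < 0 := by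
  have hone : ∀ i, ∀ᶠ ε in 𝓝[>] (0 : ℝ), ∀ L ∈ Icc L₀ L₁, ∀ x, Sat a b L x →
      ∑ j, a i j * x j = b i L →
      (∀ s ∈ S, ∑ j, a i j * s j = 0) ∨ ∑ j, a i j * F x j + ε * deriv (b i) L < 0 := by
    intro i
    by_cases hperp : ∀ s ∈ S, ∑ j, a i j * s j = 0
    · exact Eventually.of_forall fun ε L _ x _ _ => Or.inl hperp
    -- the compact set of active points
    let C : Set (ℝ × (Fin d → ℝ)) := {p | p.1 ∈ Icc L₀ L₁ ∧ Sat a b p.1 p.2 ∧
      ∑ j, a i j * p.2 j = b i p.1}
    have hCcl : IsClosed C := by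
      have h1 : IsClosed {p : ℝ × (Fin d → ℝ) | p.1 ∈ Icc L₀ L₁} :=
        isClosed_Icc.preimage continuous_fst
      have hdot : ∀ i', Continuous fun p : ℝ × (Fin d → ℝ) => ∑ j, a i' j * p.2 j := by
        intro i'
        fun_prop
      have hbc : ∀ i', Continuous fun p : ℝ × (Fin d → ℝ) => b i' p.1 := fun i' =>
        (hb i').continuous.comp continuous_fst
      have h2 : IsClosed {p : ℝ × (Fin d → ℝ) | Sat a b p.1 p.2} := by
        have : {p : ℝ × (Fin d → ℝ) | Sat a b p.1 p.2} =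
            ⋂ i', {p : ℝ × (Fin d → ℝ) | ∑ j, a i' j * p.2 j ≤ b i' p.1} := by
          ext p; simp [Sat]
        rw [this]
        exact isClosed_iInter fun i' => isClosed_le (hdot i') (hbc i')
      have h3 : IsClosed {p : ℝ × (Fin d → ℝ) | ∑ j, a i j * p.2 j = b i p.1} :=
        isClosed_eq (hdot i) (hbc i)
      exact h1.inter (h2.inter h3)
    set R : ℝ := Real.exp (|D| * (|L₀| + |L₁|)) with hR
    have hCc : IsCompact C := by
      refine IsCompact.of_isClosed_subset
        ((isCompact_Icc (a := L₀) (b := L₁)).prod (isCompact_Icc (a := (0 : Fin d → ℝ)) (b := fun _ => R)))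
        hCcl ?_
      rintro ⟨L, x⟩ ⟨hL, hsat, -⟩
      refine ⟨hL, ?_, ?_⟩
      · intro j
        exact (Real.exp_pos _).le.trans (hbox L hL.1 x hsat j).1
      · intro j
        refine (hbox L hL.1 x hsat j).2.trans ?_
        refine Real.exp_le_exp.2 ?_
        have hLabs : |L| ≤ |L₀| + |L₁| := by
          rw [abs_le]
          have h1 := neg_abs_le L₀
          have h2 := le_abs_self L₁
          have h3 := abs_nonneg L₀
          have h4 := abs_nonneg L₁
          constructor <;> linarith [hL.1, hL.2]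
        calc D * L ≤ |D * L| := le_abs_self _
          _ = |D| * |L| := abs_mul _ _
          _ ≤ |D| * (|L₀| + |L₁|) := by gcongr
    have hneg : ∀ p ∈ C, ∑ j, a i j * F p.2 j < 0 := by
      rintro ⟨L, x⟩ ⟨hL, hsat, heq⟩
      exact (hact L hL.1 x hsat i heq).resolve_left hperp
    have hm : ∃ m : ℝ, 0 < m ∧ ∀ p ∈ C, ∑ j, a i j * F p.2 j ≤ -m := by
      by_cases hne : C.Nonempty
      · obtain ⟨p₀, hp₀, hmax⟩ := hCc.exists_isMaxOn hne
          (f := fun p : ℝ × (Fin d → ℝ) => ∑ j, a i j * F p.2 j) (by fun_prop)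
        refine ⟨-(∑ j, a i j * F p₀.2 j), by linarith [hneg p₀ hp₀], fun p hp => ?_⟩
        have : ∑ j, a i j * F p.2 j ≤ ∑ j, a i j * F p₀.2 j := hmax hp
        linarith
      · exact ⟨1, one_pos, fun p hp => absurd ⟨p, hp⟩ hne⟩
    obtain ⟨m, hm0, hm⟩ := hm
    have hderc : Continuous (deriv (b i)) := (hb i).continuous_deriv le_rfl
    obtain ⟨B, hB⟩ := (isCompact_Icc (a := L₀) (b := L₁)).exists_bound_of_continuousOn
      hderc.continuousOn
    have hB' : ∀ L ∈ Icc L₀ L₁, deriv (b i) L ≤ |B| := fun L hL =>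
      ((le_abs_self _).trans (hB L hL)).trans (le_abs_self B)
    have hpos : 0 < m / (|B| + 1) := by positivity
    filter_upwards [Ioc_mem_nhdsGT hpos] with ε hε L hL x hsat heq
    refine Or.inr ?_
    have h1 := hm (L, x) ⟨hL, hsat, heq⟩
    have h2 := hB' L hL
    have h3 : ε * deriv (b i) L ≤ ε * |B| := mul_le_mul_of_nonneg_left h2 hε.1.le
    have h4 : ε * (|B| + 1) ≤ m := by
      have := hε.2
      rwa [le_div_iff₀ (by positivity)] at this
    have h5 : ∑ j, a i j * F x j ≤ -m := h1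
    nlinarith [hε.1]
  obtain ⟨ε, hε, hε0⟩ := ((eventually_all.2 hone).and self_mem_nhdsWithin).exists
  exact ⟨ε, hε0, fun L hL x hsat i heq => hε i L hL x hsat heq⟩

/-- Static invariance. -/
theorem static {d : ℕ} {F : (Fin d → ℝ) → (Fin d → ℝ)} {S : Submodule ℝ (Fin d → ℝ)}
    (hFS : ∀ x, F x ∈ S) {c : Fin d → ℝ} {ι : Type} [Fintype ι] {a : ι → Fin d → ℝ}
    {b : ι → ℝ → ℝ} (hb : ∀ i, ContDiff ℝ 1 (b i)) {L : ℝ} (hc : Sat a b L c)
    (hact : ∀ x, Sat a b L x → ∀ i, ∑ j, a i j * x j = b i L →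
      (∀ s ∈ S, ∑ j, a i j * s j = 0) ∨ ∑ j, a i j * F x j < 0)
    {x : ℝ → (Fin d → ℝ)} (hx : IsForwardSolution F x) (hx0 : x 0 - c ∈ S)
    (hsat : Sat a b L (x 0)) {t : ℝ} (ht : 0 ≤ t) : Sat a b L (x t) := by
  have := move hFS hb (L₁ := L) (ε := 0) (T := t) (c := c) (by intro s _; simpa using hc)
    (by
      intro s _ y hy _ i hi
      simp only [zero_mul, sub_zero, add_zero] at hy hi ⊢
      exact hact y hy i hi) hx hx0 hsat t ⟨ht, le_rfl⟩
  simpa using this

theorem part3 : Part3 := by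
  intro d F hF S hFS c hcpos ι _ a b D hb hexh hbox hact
  -- choose `L₀`
  obtain ⟨L₀, hL₀⟩ := eventually_atTop.1 ((hexh c hcpos).and (hbox.and hact))
  have hc : ∀ L, L₀ ≤ L → Sat a b L c := fun L hL => (hL₀ L hL).1
  have hbox' : ∀ L, L₀ ≤ L → ∀ x, Sat a b L x →
      ∀ j, Real.exp (-(D * L)) ≤ x j ∧ x j ≤ Real.exp (D * L) := fun L hL => (hL₀ L hL).2.1
  have hact' : ∀ L, L₀ ≤ L → ∀ x, Sat a b L x → ∀ i, ∑ j, a i j * x j = b i L →
      (∀ s ∈ S, ∑ j, a i j * s j = 0) ∨ ∑ j, a i j * F x j < 0 := fun L hL => (hL₀ L hL).2.2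
  have hdot : ∀ i, Continuous fun x : (Fin d → ℝ) => ∑ j, a i j * x j := fun i => by fun_prop
  -- choose `L₁` for a starting point
  have hL₁ : ∀ x₀ : Fin d → ℝ, (∀ i, 0 < x₀ i) → ∃ L₁, L₀ ≤ L₁ ∧ Sat a b L₁ x₀ := by
    intro x₀ hx₀
    obtain ⟨L₁, h1, h2⟩ := ((hexh x₀ hx₀).and (eventually_ge_atTop L₀)).exists
    exact ⟨L₁, h2, h1⟩
  have hSatcl : ∀ L, IsClosed {x : Fin d → ℝ | Sat a b L x} := by
    intro L
    have : {x : Fin d → ℝ | Sat a b L x} = ⋂ i, {x : Fin d → ℝ | ∑ j, a i j * x j ≤ b i L} := by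
      ext x; simp [Sat]
    rw [this]
    exact isClosed_iInter fun i => isClosed_le (hdot i) continuous_const
  set K : Set (Fin d → ℝ) := {x | Sat a b L₀ x ∧ x - c ∈ S} with hK
  have hinvK : ∀ x : ℝ → (Fin d → ℝ), IsForwardSolution F x → x 0 ∈ K →
      ∀ t : ℝ, 0 ≤ t → x t ∈ K := by
    intro x hx hx0 t ht
    refine ⟨static hFS hb (hc L₀ le_rfl) (hact' L₀ le_rfl) hx hx0.2 hx0.1 ht, ?_⟩
    have h1 := S.add_mem (sub_mem_of_solution hFS hx ht) hx0.2
    simpa using h1
  refine ⟨K, ?_, ?_, ?_, ?_, hinvK, ?_⟩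
  · rintro x ⟨hx, hxS⟩
    exact ⟨fun i => (Real.exp_pos _).trans_le (hbox' L₀ le_rfl x hx i).1, hxS⟩
  · exact ⟨c, hc L₀ le_rfl, by simp⟩
  · refine IsCompact.of_isClosed_subset
      (isCompact_Icc (a := (0 : Fin d → ℝ)) (b := fun _ => Real.exp (D * L₀))) ?_ ?_
    · have hScl : IsClosed (S : Set (Fin d → ℝ)) := S.closed_of_finiteDimensional
      exact (hSatcl L₀).inter (hScl.preimage (continuous_id.sub continuous_const))
    · rintro x ⟨hx, -⟩
      exact ⟨fun j => (Real.exp_pos _).le.trans (hbox' L₀ le_rfl x hx j).1,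
        fun j => (hbox' L₀ le_rfl x hx j).2⟩
  · rintro x ⟨hx, hxS⟩ y ⟨hy, hyS⟩ p q hp hq hpq
    refine ⟨fun i => ?_, ?_⟩
    · have h1 : ∑ j, a i j * (p • x + q • y) j =
          p * ∑ j, a i j * x j + q * ∑ j, a i j * y j := by
        rw [Finset.mul_sum, Finset.mul_sum, ← Finset.sum_add_distrib]
        refine Finset.sum_congr rfl fun j _ => ?_
        simp only [Pi.add_apply, Pi.smul_apply, smul_eq_mul]
        ring
      rw [h1]
      calc p * ∑ j, a i j * x j + q * ∑ j, a i j * y j ≤ p * b i L₀ + q * b i L₀ := by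
            gcongr
            · exact hx i
            · exact hy i
        _ = b i L₀ := by rw [← add_mul, hpq, one_mul]
    · have h1 : p • x + q • y - c = p • (x - c) + q • (y - c) := by
        have : c = (p + q) • c := by rw [hpq, one_smul]
        rw [smul_sub, smul_sub]
        nth_rewrite 1 [this]
        rw [add_smul]; abel
      rw [h1]
      exact S.add_mem (S.smul_mem _ hxS) (S.smul_mem _ hyS)
  · rintro x₀ ⟨hx₀, hx₀S⟩
    obtain ⟨L₁, hL₁, hsat⟩ := hL₁ x₀ hx₀
    set lo := Real.exp (-(D * L₁)) with hlo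
    set hi := Real.exp (D * L₁) with hhi
    let box : Set (Fin d → ℝ) := Icc (fun _ => lo) (fun _ => hi)
    have hboxc : IsCompact box := isCompact_Icc
    have hlohi : ∀ _ : Fin d, lo ≤ hi := fun j =>
      (hbox' L₁ hL₁ x₀ hsat j).1.trans (hbox' L₁ hL₁ x₀ hsat j).2
    obtain ⟨Kl, hKl⟩ := (hF.locallyLipschitz.locallyLipschitzOn
      (s := box)).exists_lipschitzOnWith_of_compact hboxc
    have hSatbox : ∀ x, Sat a b L₁ x → x ∈ box := fun x hx =>
      ⟨fun j => (hbox' L₁ hL₁ x hx j).1, fun j => (hbox' L₁ hL₁ x hx j).2⟩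
    -- all solutions stay in the polytope at `L₁`
    have hstay : ∀ x : ℝ → (Fin d → ℝ), IsForwardSolution F x → x 0 = x₀ →
        ∀ t, 0 ≤ t → Sat a b L₁ (x t) := by
      intro x hx hx0 t ht
      exact static hFS hb (hc L₁ hL₁) (hact' L₁ hL₁) hx (by rw [hx0]; exact hx₀S)
        (by rw [hx0]; exact hsat) ht
    refine ⟨?_, ?_, ?_⟩
    · -- existence
      let cl : (Fin d → ℝ) → (Fin d → ℝ) := fun x j => max lo (min hi (x j))
      have hclbox : ∀ x, cl x ∈ box := fun x =>
        ⟨fun j => le_max_left _ _, fun j => max_le (hlohi j) (min_le_left _ _)⟩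
      have hclid : ∀ x ∈ box, cl x = x := by
        intro x hx
        funext j
        have h1 : lo ≤ x j := hx.1 j
        have h2 : x j ≤ hi := hx.2 j
        simp only [cl]
        rw [min_eq_right h2, max_eq_right h1]
      have hclL : LipschitzWith 1 cl := by
        refine LipschitzWith.of_dist_le_mul fun x y => ?_
        rw [NNReal.coe_one, one_mul]
        refine (dist_pi_le_iff dist_nonneg).2 fun j => ?_
        refine le_trans ?_ (dist_le_pi_dist x y j)
        rw [Real.dist_eq, Real.dist_eq]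
        calc |max lo (min hi (x j)) - max lo (min hi (y j))|
            ≤ |min hi (x j) - min hi (y j)| := by
              have := abs_max_sub_max_le_max lo (min hi (x j)) lo (min hi (y j))
              simpa using this
          _ ≤ |x j - y j| := by
              have := abs_min_sub_min_le_max hi (x j) hi (y j)
              simpa using this
      let G : (Fin d → ℝ) → (Fin d → ℝ) := fun x => F (cl x)
      have hGL : LipschitzWith (Kl * 1) G := by
        have h1 := hKl.comp (hclL.lipschitzOnWith (s := univ)) (fun x _ => hclbox x)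
        exact lipschitzOnWith_univ.1 h1
      obtain ⟨M, hM⟩ := hboxc.exists_bound_of_continuousOn (f := F) hF.continuous.continuousOn
      obtain ⟨x, hx, hx0⟩ := exists_global G hGL (M := ⟨|M|, abs_nonneg M⟩)
        (fun x => (hM (cl x) (hclbox x)).trans (le_abs_self M)) x₀
      have hstayG : ∀ t, 0 ≤ t → Sat a b L₁ (x t) := by
        intro t ht
        refine static (F := G) (fun x => hFS _) hb (hc L₁ hL₁) ?_ hx
          (by rw [hx0]; exact hx₀S) (by rw [hx0]; exact hsat) ht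
        intro y hy i hi
        have h1 : G y = F y := by
          simp only [G]; rw [hclid y (hSatbox y hy)]
        rw [h1]
        exact hact' L₁ hL₁ y hy i hi
      refine ⟨x, fun t ht => ?_, hx0⟩
      have h1 := hx t ht
      have h2 : G (x t) = F (x t) := by
        simp only [G]; rw [hclid _ (hSatbox _ (hstayG t ht))]
      rwa [h2] at h1
    · -- uniqueness
      intro x x' hx hx' hx0 hx0' t ht
      have h1 := ODE_solution_unique_of_mem_Icc_right (v := fun _ => F) (s := fun _ => box)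
        (K := Kl) (a := 0) (b := t) (f := x) (g := x') (fun s _ => hKl)
        ((IsForwardSolution.continuousOn hx).mono fun s hs => hs.1)
        (fun s hs => IsForwardSolution.hasDeriv_Ici hx hs.1)
        (fun s hs => hSatbox _ (hstay x hx hx0 s hs.1))
        ((IsForwardSolution.continuousOn hx').mono fun s hs => hs.1)
        (fun s hs => IsForwardSolution.hasDeriv_Ici hx' hs.1)
        (fun s hs => hSatbox _ (hstay x' hx' hx0' s hs.1))
        (by rw [hx0, hx0'])
      exact h1 ⟨ht, le_rfl⟩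
    · intro x hx hx0
      refine ⟨fun t ht i => (Real.exp_pos _).trans_le
        (hbox' L₁ hL₁ _ (hstay x hx hx0 t ht) i).1, ?_⟩
      obtain ⟨ε, hε, hεact⟩ := exists_eps hF.continuous (S := S) hb (L₁ := L₁) hbox' hact'
      set T : ℝ := (L₁ - L₀) / ε with hT
      have hT0 : 0 ≤ T := div_nonneg (by linarith) hε.le
      have hεT : ε * T = L₁ - L₀ := by rw [hT]; field_simp
      have hrange : ∀ t ∈ Icc 0 T, L₁ - ε * t ∈ Icc L₀ L₁ := by
        intro t ht
        have h1 : ε * t ≤ ε * T := mul_le_mul_of_nonneg_left ht.2 hε.le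
        have h2 : 0 ≤ ε * t := mul_nonneg hε.le ht.1
        constructor <;> linarith
      have hmove := move hFS hb (L₁ := L₁) (ε := ε) (T := T) (c := c)
        (fun t ht => hc _ (hrange t ht).1)
        (fun t ht y hy _ i hi => hεact _ (hrange t (Ico_subset_Icc_self ht)) y hy i hi)
        hx (by rw [hx0]; exact hx₀S) (by rw [hx0]; exact hsat) T ⟨hT0, le_rfl⟩
      rw [hεT, sub_sub_cancel] at hmove
      refine ⟨T, hT0, fun t ht => ?_⟩
      have hxT : x T - c ∈ S := by
        have h1 := S.add_mem (sub_mem_of_solution hFS hx hT0) (by rw [hx0]; exact hx₀S : x 0 - c ∈ S)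
        simpa using h1
      have hsh := IsForwardSolution.shift hx hT0
      have h2 := hinvK (fun s => x (s + T)) hsh (by
        simp only [zero_add]
        exact ⟨hmove, hxT⟩) (t - T) (by linarith)
      simpa using h2

end Crest.Agent.R092.Dyn
end

-- ▼ part R092/Field
section

/-!
Result 92 (S0122), Part 2: the field estimate.
-/

set_option autoImplicit false

namespace Crest.Agent.R092
open Filter Crest.AnalysisR.MassAction

/-- Pairing of a real vector with a complex. -/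
noncomputable def dotC {d : ℕ} (w : Fin d → ℝ) (y : Fin d → ℕ) : ℝ := ∑ j, w j * (y j : ℝ)

/-- The monomial `x ^ y`. -/
noncomputable def mono {d : ℕ} (x : Fin d → ℝ) (y : Fin d → ℕ) : ℝ := ∏ i, x i ^ y i

lemma mono_pos {d : ℕ} {x : Fin d → ℝ} (hx : ∀ j, 0 < x j) (y : Fin d → ℕ) : 0 < mono x y :=
  Finset.prod_pos fun i _ => pow_pos (hx i) _

lemma log_mono {d : ℕ} {x : Fin d → ℝ} (hx : ∀ j, 0 < x j) (y : Fin d → ℕ) :
    Real.log (mono x y) = ∑ j, (y j : ℝ) * Real.log (x j) := by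
  unfold mono
  rw [Real.log_prod (fun i _ => (pow_pos (hx i) _).ne')]
  exact Finset.sum_congr rfl fun i _ => by rw [Real.log_pow]

/-- On a return path from above level `c` to a complex at level at most `c`, some reaction goes
from above `c` to at most `c`. -/
lemma exists_down {d : ℕ} (R : Network d) (w : Fin d → ℝ) (c : ℝ) {u y : Fin d → ℕ}
    (h : Relation.ReflTransGen (fun a b => (a, b) ∈ R) u y) (hy : dotC w y ≤ c)
    (hu : c < dotC w u) :
    ∃ s ∈ R, c < dotC w s.1 ∧ dotC w s.2 ≤ c := by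
  induction h using Relation.ReflTransGen.head_induction_on with
  | refl => exact absurd hu (not_lt.mpr hy)
  | @head a b hab _ ih =>
    by_cases hb : c < dotC w b
    · exact ih hb
    · exact ⟨(a, b), hab, hu, not_lt.mp hb⟩

lemma dot_reactionVector {d : ℕ} (w : Fin d → ℝ) (r : (Fin d → ℕ) × (Fin d → ℕ)) :
    ∑ j, w j * reactionVector r j = dotC w r.2 - dotC w r.1 := by
  unfold dotC reactionVector
  rw [← Finset.sum_sub_distrib]
  exact Finset.sum_congr rfl fun j _ => by ring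

lemma dot_field {d : ℕ} (R : Network d) (k : (Fin d → ℕ) × (Fin d → ℕ) → ℝ)
    (w x : Fin d → ℝ) :
    ∑ j, w j * field R k x j = ∑ r ∈ R, k r * mono x r.1 * (dotC w r.2 - dotC w r.1) := by
  have h1 : ∀ j, w j * field R k x j = ∑ r ∈ R, k r * mono x r.1 * (w j * reactionVector r j) := by
    intro j
    unfold field
    rw [Finset.sum_apply, Finset.mul_sum]
    refine Finset.sum_congr rfl fun r _ => ?_
    simp only [Pi.smul_apply, smul_eq_mul, mono]
    ring
  simp_rw [h1]
  rw [Finset.sum_comm]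
  refine Finset.sum_congr rfl fun r _ => ?_
  rw [← dot_reactionVector, Finset.mul_sum]

lemma mono_le_of_compat {d : ℕ} {Q : ℕ} {L : ℝ} {w x : Fin d → ℝ} (hx : ∀ j, 0 < x j)
    (hc : Compat Q L w x) {y p : Fin d → ℕ} (hy : ∀ j, y j ≤ Q) (hp : ∀ j, p j ≤ Q)
    (hlt : dotC w y < dotC w p) : mono x y * Real.exp L ≤ mono x p := by
  have h := hc (fun j => (p j : ℤ) - (y j : ℤ)) (fun j => by
    have h1 := hy j
    have h2 := hp j
    rw [abs_le]
    constructor <;> omega) (by
    have : ∑ j, w j * (((p j : ℤ) - (y j : ℤ) : ℤ) : ℝ) = dotC w p - dotC w y := by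
      unfold dotC
      rw [← Finset.sum_sub_distrib]
      exact Finset.sum_congr rfl fun j _ => by push_cast; ring
    rw [this]
    linarith)
  have h2 : ∑ j, ((((p j : ℤ) - (y j : ℤ) : ℤ)) : ℝ) * Real.log (x j)
      = Real.log (mono x p) - Real.log (mono x y) := by
    rw [log_mono hx, log_mono hx, ← Finset.sum_sub_distrib]
    exact Finset.sum_congr rfl fun j _ => by push_cast; ring
  rw [h2] at h
  have hyp := mono_pos hx y
  have hpp := mono_pos hx p
  have h3 : Real.log (mono x y) + L ≤ Real.log (mono x p) := by linarith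
  calc mono x y * Real.exp L = Real.exp (Real.log (mono x y) + L) := by
        rw [Real.exp_add, Real.exp_log hyp]
    _ ≤ Real.exp (Real.log (mono x p)) := Real.exp_le_exp.mpr h3
    _ = mono x p := Real.exp_log hpp

theorem part2 : Part2 := by
  classical
  intro d R hWR k hk Q hQ w
  set g : (Fin d → ℕ) × (Fin d → ℕ) → ℝ := fun r => dotC w r.2 - dotC w r.1 with hg
  by_cases hall : ∀ r ∈ R, g r = 0
  · refine Filter.Eventually.of_forall fun L x _ _ => Or.inl ?_
    intro r hr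
    rw [dot_reactionVector]
    exact hall r hr
  push Not at hall
  obtain ⟨r0, hr0, hr0g⟩ := hall
  -- ratio constant
  set M : ℝ := ∑ r ∈ R, ∑ s ∈ R, |k r * g r| / |k s * g s| with hM
  have hM0 : 0 ≤ M := Finset.sum_nonneg fun r _ => Finset.sum_nonneg fun s _ =>
    div_nonneg (abs_nonneg _) (abs_nonneg _)
  have hev : ∀ᶠ L : ℝ in atTop, M < Real.exp L :=
    (Real.tendsto_exp_atTop.eventually_gt_atTop M)
  filter_upwards [hev] with L hL x hx hc
  refine Or.inr ?_
  rw [dot_field]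
  -- for every up reaction a dominating down reaction
  have hdom : ∀ r ∈ R, 0 < g r → ∃ s ∈ R, g s < 0 ∧ mono x r.1 * Real.exp L ≤ mono x s.1 := by
    intro r hr hgr
    have hgr' : dotC w r.1 < dotC w r.2 := by simpa [hg] using hgr
    obtain ⟨s, hs, hs1, hs2⟩ := exists_down R w (dotC w r.1) (hWR r hr) le_rfl hgr'
    refine ⟨s, hs, ?_, ?_⟩
    · simp only [hg]; linarith
    · exact mono_le_of_compat hx hc (fun j => (hQ r hr j).1) (fun j => (hQ s hs j).1) hs1
  -- total down part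
  set D : ℝ := ∑ s ∈ R.filter (fun s => g s < 0), k s * mono x s.1 * |g s| with hD
  have hterm : ∀ s ∈ R, 0 < k s * mono x s.1 := fun s hs => mul_pos (hk s hs) (mono_pos hx _)
  have hDle : ∀ s ∈ R, g s < 0 → k s * mono x s.1 * |g s| ≤ D := by
    intro s hs hgs
    rw [hD]
    refine Finset.single_le_sum (f := fun s => k s * mono x s.1 * |g s|) (fun t ht => ?_)
      (Finset.mem_filter.mpr ⟨hs, hgs⟩)
    exact mul_nonneg (hterm t (Finset.mem_filter.mp ht).1).le (abs_nonneg _)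
  have hDpos : 0 < D := by
    have : ∃ s ∈ R, g s < 0 := by
      rcases lt_or_gt_of_ne hr0g with h | h
      · exact ⟨r0, hr0, h⟩
      · obtain ⟨s, hs, hgs, _⟩ := hdom r0 hr0 h
        exact ⟨s, hs, hgs⟩
    obtain ⟨s, hs, hgs⟩ := this
    exact lt_of_lt_of_le (mul_pos (hterm s hs) (abs_pos.mpr hgs.ne)) (hDle s hs hgs)
  have hup : ∀ r ∈ R, 0 < g r →
      k r * mono x r.1 * g r ≤ (∑ s ∈ R, |k r * g r| / |k s * g s|) * (Real.exp (-L) * D) := by
    intro r hr hgr
    obtain ⟨s, hs, hgs, hms⟩ := hdom r hr hgr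
    have hks := hk s hs
    have hkr := hk r hr
    have hpos : 0 < |k s * g s| := abs_pos.mpr (mul_ne_zero hks.ne' hgs.ne)
    have h1 : mono x r.1 ≤ Real.exp (-L) * mono x s.1 := by
      rw [Real.exp_neg, ← div_eq_inv_mul, le_div_iff₀ (Real.exp_pos L)]
      exact hms
    have h2 : k r * mono x r.1 * g r ≤ |k r * g r| * (Real.exp (-L) * mono x s.1) := by
      have : |k r * g r| = k r * g r := abs_of_pos (mul_pos hkr hgr)
      rw [this]
      calc k r * mono x r.1 * g r = (k r * g r) * mono x r.1 := by ring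
        _ ≤ (k r * g r) * (Real.exp (-L) * mono x s.1) :=
          mul_le_mul_of_nonneg_left h1 (mul_pos hkr hgr).le
    have h3 : |k r * g r| * (Real.exp (-L) * mono x s.1)
        = (|k r * g r| / |k s * g s|) * (Real.exp (-L) * (k s * mono x s.1 * |g s|)) := by
      have : |k s * g s| = k s * |g s| := by rw [abs_mul, abs_of_pos hks]
      have hgs' : |g s| ≠ 0 := (abs_pos.mpr hgs.ne).ne'
      rw [this]
      field_simp
    have h4 : Real.exp (-L) * (k s * mono x s.1 * |g s|) ≤ Real.exp (-L) * D :=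
      mul_le_mul_of_nonneg_left (hDle s hs hgs) (Real.exp_pos _).le
    have h5 : |k r * g r| / |k s * g s| ≤ ∑ s ∈ R, |k r * g r| / |k s * g s| :=
      Finset.single_le_sum (f := fun s => |k r * g r| / |k s * g s|)
        (fun t _ => div_nonneg (abs_nonneg _) (abs_nonneg _)) hs
    calc k r * mono x r.1 * g r ≤ |k r * g r| * (Real.exp (-L) * mono x s.1) := h2
      _ = (|k r * g r| / |k s * g s|) * (Real.exp (-L) * (k s * mono x s.1 * |g s|)) := h3
      _ ≤ (|k r * g r| / |k s * g s|) * (Real.exp (-L) * D) :=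
        mul_le_mul_of_nonneg_left h4 (div_nonneg (abs_nonneg _) (abs_nonneg _))
      _ ≤ (∑ s ∈ R, |k r * g r| / |k s * g s|) * (Real.exp (-L) * D) :=
        mul_le_mul_of_nonneg_right h5 (mul_nonneg (Real.exp_pos _).le hDpos.le)
  -- split the sum
  have hsplit : ∑ r ∈ R, k r * mono x r.1 * (dotC w r.2 - dotC w r.1)
      ≤ M * (Real.exp (-L) * D) - D := by
    have hpt : ∀ r ∈ R, k r * mono x r.1 * g r
        ≤ (∑ s ∈ R, |k r * g r| / |k s * g s|) * (Real.exp (-L) * D)
          - (if g r < 0 then k r * mono x r.1 * |g r| else 0) := by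
      intro r hr
      have hS : 0 ≤ (∑ s ∈ R, |k r * g r| / |k s * g s|) * (Real.exp (-L) * D) :=
        mul_nonneg (Finset.sum_nonneg fun s _ => div_nonneg (abs_nonneg _) (abs_nonneg _))
          (mul_nonneg (Real.exp_pos _).le hDpos.le)
      rcases lt_trichotomy (g r) 0 with h | h | h
      · rw [if_pos h, abs_of_neg h]
        linarith [hS]
      · simp only [h, mul_zero, lt_irrefl, if_false, sub_zero]
        simpa [h] using hS
      · rw [if_neg (not_lt.mpr h.le), sub_zero]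
        exact hup r hr h
    calc ∑ r ∈ R, k r * mono x r.1 * (dotC w r.2 - dotC w r.1)
        = ∑ r ∈ R, k r * mono x r.1 * g r := rfl
      _ ≤ ∑ r ∈ R, ((∑ s ∈ R, |k r * g r| / |k s * g s|) * (Real.exp (-L) * D)
          - (if g r < 0 then k r * mono x r.1 * |g r| else 0)) := Finset.sum_le_sum hpt
      _ = M * (Real.exp (-L) * D) - D := by
        rw [Finset.sum_sub_distrib, ← Finset.sum_mul, ← hM, hD, Finset.sum_filter]
  have hML : M * Real.exp (-L) < 1 := by
    rw [Real.exp_neg, ← div_eq_mul_inv, div_lt_one (Real.exp_pos L)]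
    exact hL
  calc ∑ r ∈ R, k r * mono x r.1 * (dotC w r.2 - dotC w r.1)
      ≤ M * (Real.exp (-L) * D) - D := hsplit
    _ = (M * Real.exp (-L) - 1) * D := by ring
    _ < 0 := mul_neg_of_neg_of_pos (by linarith) hDpos

end Crest.Agent.R092
end

-- ▼ part R092/Final

/-!
Result 92 (S0122): final assembly from Part 1, Part 2 and Part 3.
-/

set_option autoImplicit false

namespace Crest.Agent.R092
open Filter Crest.AnalysisR.MassAction

lemma field_contDiff {d : ℕ} (R : Network d) (k : (Fin d → ℕ) × (Fin d → ℕ) → ℝ) :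
    ContDiff ℝ 1 (field R k) := by
  rw [contDiff_pi]
  intro j
  have : (fun x : Fin d → ℝ => field R k x j)
      = fun x => ∑ r ∈ R, (k r * ∏ i, x i ^ (r.1 i)) * reactionVector r j := by
    funext x
    unfold field
    rw [Finset.sum_apply]
    rfl
  rw [this]
  refine ContDiff.sum fun r _ => ?_
  refine ContDiff.mul ?_ contDiff_const
  refine ContDiff.mul contDiff_const ?_
  exact contDiff_prod fun i _ => (contDiff_apply ℝ ℝ i).pow _

lemma field_mem {d : ℕ} (R : Network d) (k : (Fin d → ℕ) × (Fin d → ℕ) → ℝ) (x : Fin d → ℝ) :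
    field R k x ∈ stoichSubspace R :=
  Submodule.sum_mem _ fun r hr =>
    Submodule.smul_mem _ _ (Submodule.subset_span ⟨r, hr, rfl⟩)

lemma dot_eq_zero_of_span {d : ℕ} (R : Network d) (w : Fin d → ℝ)
    (h : ∀ r ∈ R, ∑ j, w j * reactionVector r j = 0) :
    ∀ s ∈ stoichSubspace R, ∑ j, w j * s j = 0 := by
  intro s hs
  unfold stoichSubspace at hs
  induction hs using Submodule.span_induction with
  | mem x hx =>
    obtain ⟨r, hr, rfl⟩ := hx
    exact h r hr
  | zero => simp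
  | add x y _ _ hx hy =>
    simp only [Pi.add_apply, mul_add, Finset.sum_add_distrib, hx, hy, add_zero]
  | smul c x _ hx =>
    have : ∑ j, w j * (c • x) j = c * ∑ j, w j * x j := by
      rw [Finset.mul_sum]
      exact Finset.sum_congr rfl fun j _ => by simp only [Pi.smul_apply, smul_eq_mul]; ring
    rw [this, hx, mul_zero]

/-- The statement of S0122, from the polytope part and the dynamics part. -/
theorem main_of_parts (h1 : Part1) (h3 : Part3)
    (d : ℕ) (hd : 1 ≤ d) (R : Network d) (hR : IsWeaklyReversible R)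
    (k : (Fin d → ℕ) × (Fin d → ℕ) → ℝ) (hk : ∀ r ∈ R, 0 < k r)
    (c : Fin d → ℝ) (hc : ∀ i, 0 < c i) :
    ∃ K : Set (Fin d → ℝ), K ⊆ positiveClass R c ∧ K.Nonempty ∧ IsCompact K ∧ Convex ℝ K ∧
      (∀ x : ℝ → (Fin d → ℝ), IsForwardSolution (field R k) x → x 0 ∈ K →
        ∀ t : ℝ, 0 ≤ t → x t ∈ K) ∧
      (∀ x₀ ∈ positiveClass R c,
        (∃ x : ℝ → (Fin d → ℝ), IsForwardSolution (field R k) x ∧ x 0 = x₀) ∧
        (∀ x x' : ℝ → (Fin d → ℝ), IsForwardSolution (field R k) x →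
          IsForwardSolution (field R k) x' → x 0 = x₀ → x' 0 = x₀ →
          ∀ t : ℝ, 0 ≤ t → x t = x' t) ∧
        (∀ x : ℝ → (Fin d → ℝ), IsForwardSolution (field R k) x → x 0 = x₀ →
          (∀ t : ℝ, 0 ≤ t → ∀ i, 0 < x t i) ∧
          ∃ T : ℝ, 0 ≤ T ∧ ∀ t : ℝ, T ≤ t → x t ∈ K)) := by
  classical
  -- a bound for all coefficients
  obtain ⟨Q, hQ⟩ : ∃ Q : ℕ, ∀ r ∈ R, ∀ j, r.1 j ≤ Q ∧ r.2 j ≤ Q := by
    refine ⟨∑ r ∈ R, ∑ j, (r.1 j + r.2 j), fun r hr j => ?_⟩
    have h1 : r.1 j + r.2 j ≤ ∑ j, (r.1 j + r.2 j) :=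
      Finset.single_le_sum (f := fun j => r.1 j + r.2 j) (fun _ _ => Nat.zero_le _)
        (Finset.mem_univ j)
    have h2 : ∑ j, (r.1 j + r.2 j) ≤ ∑ r ∈ R, ∑ j, (r.1 j + r.2 j) :=
      Finset.single_le_sum (f := fun r : (Fin d → ℕ) × (Fin d → ℕ) => ∑ j, (r.1 j + r.2 j))
        (fun _ _ => Nat.zero_le _) hr
    omega
  obtain ⟨ι, hι, a, b, D, hb, hA, hB, hC⟩ := h1 d hd Q
  have hev : ∀ᶠ L in atTop, ∀ x, Sat a b L x →
      ∀ i, ∑ j, a i j * x j = b i L →
        (∀ s ∈ stoichSubspace R, ∑ j, a i j * s j = 0) ∨ ∑ j, a i j * field R k x j < 0 := by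
    have h2 : ∀ᶠ L in atTop, ∀ i : ι, ∀ x : Fin d → ℝ, (∀ j, 0 < x j) → Compat Q L (a i) x →
        (∀ r ∈ R, ∑ j, a i j * reactionVector r j = 0) ∨ ∑ j, a i j * field R k x j < 0 :=
      eventually_all.mpr fun i => part2 d R hR k hk Q hQ (a i)
    filter_upwards [h2, hB, hC] with L h2L hBL hCL x hx i hi
    have hxpos : ∀ j, 0 < x j := fun j => lt_of_lt_of_le (Real.exp_pos _) (hBL x hx j).1
    rcases h2L i x hxpos (hCL x hx i hi) with h | h
    · exact Or.inl (dot_eq_zero_of_span R (a i) h)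
    · exact Or.inr h
  exact h3 d (field R k) (field_contDiff R k) (stoichSubspace R) (field_mem R k) c hc ι a b D hb
    hA hB hev

end Crest.Agent.R092
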